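import Vale.Agent.P204.Leaf.Solve

/-! The closedness identities of the leafwise Beltrami system (P204). -/

namespace Vale.Agent.P204.Leaf

open scoped ContDiff ComplexConjugate
open Complex

variable {A : Matrix (Fin 4) (Fin 4) ℝ} {δ c₀ C₁ : ℝ}

lemma zc_eq (n : Z4) : zc A n = (xi A n 0 : ℂ) + (xi A n 1 : ℂ) * I :=
  Complex.mk_eq_add_mul_I _ _

lemma uc_eq (n : Z4) : uc A n = -(xi A n 3 : ℂ) + (xi A n 2 : ℂ) * I := by
  rw [uc, Complex.mk_eq_add_mul_I]; push_cast; ring

lemma ident_a (d : Data A δ c₀ C₁) (c : Z4 → ℂ) (n : Z4) :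
    I * ((xi A n 0 : ℂ) * act (aS A δ) (bS A δ) c n - (xi A n 0 : ℂ) * c n)
      - ((xi A n 1 : ℂ) * act (aS A δ) (bS A δ) c n + (xi A n 1 : ℂ) * c n)
      + (xi A n 3 : ℂ) * act (aF A δ) (bF A δ) c n
      - I * ((xi A n 2 : ℂ) * act (aF A δ) (bF A δ) c n) = 0 := by
  by_cases h0 : n = 0
  · subst h0; simp [xi]
  by_cases hs : Small A δ n
  · have hz := d.zc_ne hs
    simp only [act, aS, bS, aF, bF, if_pos hs, if_pos (Or.inl hs : Small A δ n ∨ n = 0), zero_mul,
      add_zero, mul_zero, sub_zero]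
    have e1 : I * (xi A n 0 : ℂ) - (xi A n 1 : ℂ) = I * zc A n := by
      rw [zc_eq]; linear_combination -(xi A n 1 : ℂ) * Complex.I_sq
    have e2 : I * (xi A n 0 : ℂ) + (xi A n 1 : ℂ) = I * conj (zc A n) := by
      rw [zc_eq]; simp only [map_add, map_mul, Complex.conj_ofReal, Complex.conj_I]
      linear_combination (xi A n 1 : ℂ) * Complex.I_sq
    have e3 : zc A n * (conj (zc A n) / zc A n) = conj (zc A n) := mul_div_cancel₀ _ hz
    linear_combination (conj (zc A n) / zc A n * c n) * e1 - c n * e2 + I * c n * e3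
  · have hn : ¬(Small A δ n ∨ n = 0) := by simp [hs, h0]
    have hu := d.uc_ne hn
    have hu' : conj (uc A n) ≠ 0 := by simpa using hu
    simp only [act, aS, bS, aF, bF, if_neg hs, if_neg hn, zero_mul, zero_add]
    have e1 : I * (xi A n 0 : ℂ) - (xi A n 1 : ℂ) = I * zc A n := by
      rw [zc_eq]; linear_combination -(xi A n 1 : ℂ) * Complex.I_sq
    have e2 : I * (xi A n 0 : ℂ) + (xi A n 1 : ℂ) = I * conj (zc A n) := by
      rw [zc_eq]; simp only [map_add, map_mul, Complex.conj_ofReal, Complex.conj_I]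
      linear_combination (xi A n 1 : ℂ) * Complex.I_sq
    have e3 : (xi A n 3 : ℂ) - I * (xi A n 2 : ℂ) = -uc A n := by rw [uc_eq]; ring
    have e4 : uc A n * (-(I * conj (zc A n)) / uc A n) = -(I * conj (zc A n)) :=
      mul_div_cancel₀ _ hu
    linear_combination (uc A n / conj (uc A n) * conj (c (-n))) * e1 - c n * e2
      + (-(I * conj (zc A n)) / uc A n * c n
        + I * zc A n / conj (uc A n) * conj (c (-n))) * e3 - c n * e4

lemma ident_b (d : Data A δ c₀ C₁) (c : Z4 → ℂ) (n : Z4) :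
    ((xi A n 2 : ℂ) * c n + (xi A n 2 : ℂ) * conj (act (aS A δ) (bS A δ) c (-n)))
      - I * ((xi A n 3 : ℂ) * c n - (xi A n 3 : ℂ) * conj (act (aS A δ) (bS A δ) c (-n)))
      = (xi A n 0 : ℂ) * act (aT A δ) (bT A δ) c n
        + I * ((xi A n 1 : ℂ) * act (aT A δ) (bT A δ) c n) := by
  by_cases h0 : n = 0
  · subst h0; simp [xi]
  by_cases hs : Small A δ n
  · have hz := d.zc_ne hs
    have hz' : conj (zc A n) ≠ 0 := by simpa using hz
    have hs' := (small_neg A δ n).2 hs
    simp only [act, aS, bS, aT, bT, if_pos hs, if_pos hs',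
      if_pos (Or.inl hs' : Small A δ (-n) ∨ -n = 0), zero_mul, add_zero, map_mul, map_div₀,
      neg_neg, Complex.conj_conj, zc_neg, map_neg, neg_div_neg_eq, Complex.mk_eq_add_mul_I]
    rw [zc_eq] at hz hz' ⊢
    simp only [map_add, map_mul, Complex.conj_ofReal, Complex.conj_I] at hz' ⊢
    push_cast
    field_simp
    ring
  · have hn : ¬(Small A δ n ∨ n = 0) := by simp [hs, h0]
    have hu := d.uc_ne hn
    have hu' : conj (uc A n) ≠ 0 := by simpa using hu
    have hs' : ¬ Small A δ (-n) := mt (small_neg A δ n).1 hs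
    have hn' : ¬(Small A δ (-n) ∨ -n = 0) := by simp [hs', h0]
    simp only [act, aS, bS, aT, bT, if_neg hs, if_neg hs', if_neg hn', zero_mul, zero_add,
      map_mul, map_div₀, neg_neg, Complex.conj_conj, uc_neg, map_neg, neg_div_neg_eq, mul_zero]
    rw [uc_eq] at hu hu' ⊢
    simp only [map_add, map_mul, map_neg, Complex.conj_ofReal, Complex.conj_I] at hu' ⊢
    field_simp
    linear_combination (-2 * (xi A n 2 : ℂ) * (xi A n 3 : ℂ)) * c n * Complex.I_sq

end Vale.Agent.P204.Leaf
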