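import Vale.Agent.P204.Leaf.Series

/-! Square-integrable functions on the torus: coefficients, translations, multipliers (P204). -/

namespace Vale.Agent.P204.Leaf

open scoped ENNReal ComplexConjugate
open MeasureTheory Filter

noncomputable local instance : MeasureSpace UnitAddCircle := ⟨AddCircle.haarAddCircle⟩
local instance : Measure.IsAddHaarMeasure (volume : Measure UnitAddCircle) :=
  inferInstanceAs (Measure.IsAddHaarMeasure AddCircle.haarAddCircle)
local instance : IsProbabilityMeasure (volume : Measure UnitAddCircle) :=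
  inferInstanceAs (IsProbabilityMeasure AddCircle.haarAddCircle)

noncomputable abbrev H := Lp ℂ 2 (volume : Measure T4)

/-- The coefficient functional. -/
noncomputable def coef (n : Z4) : H →L[ℂ] ℂ := innerSL ℂ (UnitAddTorus.mFourierBasis n)

lemma coef_eq_repr (n : Z4) (u : H) : coef n u = UnitAddTorus.mFourierBasis.repr u n :=
  (UnitAddTorus.mFourierBasis.repr_apply_apply u n).symm

lemma coef_eq (n : Z4) (u : H) : coef n u = UnitAddTorus.mFourierCoeff u n := by
  rw [coef_eq_repr, UnitAddTorus.mFourierBasis_repr]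

lemma coef_ext {u v : H} (h : ∀ n, coef n u = coef n v) : u = v :=
  UnitAddTorus.mFourierBasis.repr.injective (lp.ext (funext fun n => by
    rw [← coef_eq_repr, ← coef_eq_repr, h n]))

lemma hasSum_sq (u : H) : HasSum (fun n => ‖coef n u‖ ^ 2) (‖u‖ ^ 2) := by
  simp only [coef_eq_repr]
  rw [← UnitAddTorus.mFourierBasis.repr.norm_map u]
  simpa using lp.hasSum_norm (p := 2) (by norm_num) (UnitAddTorus.mFourierBasis.repr u)

lemma norm_coef_le (n : Z4) (u : H) : ‖coef n u‖ ≤ ‖u‖ :=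
  le_of_pow_le_pow_left₀ two_ne_zero (norm_nonneg _)
    (le_hasSum (hasSum_sq u) n fun _ _ => sq_nonneg _)

/-- A family of square summable coefficients as a function. -/
noncomputable def ofSeq (v : Z4 → ℂ) (hv : Summable fun n => ‖v n‖ ^ 2) : H :=
  UnitAddTorus.mFourierBasis.repr.symm ⟨v, (memℓp_gen (by simpa using hv) : Memℓp v 2)⟩

lemma coef_ofSeq (v : Z4 → ℂ) (hv : Summable fun n => ‖v n‖ ^ 2) (n : Z4) :
    coef n (ofSeq v hv) = v n := by
  rw [coef_eq_repr, ofSeq, LinearIsometryEquiv.apply_symm_apply]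

/-- An admissible pair of multipliers. -/
structure Mul (M : ℝ) (a b : Z4 → ℂ) : Prop where
  nonneg : 0 ≤ M
  le : ∀ n, ‖a n‖ + ‖b n‖ ≤ M
  even : ∀ n, ‖b (-n)‖ = ‖b n‖

variable {M : ℝ} {a b : Z4 → ℂ}

/-- The action on coefficients. -/
def act (a b : Z4 → ℂ) (v : Z4 → ℂ) : Z4 → ℂ := fun n => a n * v n + b n * conj (v (-n))

lemma act_sq (h : Mul M a b) (v : Z4 → ℂ) (n : Z4) :
    ‖act a b v n‖ ^ 2 ≤ M * (‖a n‖ * ‖v n‖ ^ 2) + M * (‖b n‖ * ‖v (-n)‖ ^ 2) := by
  have h1 : ‖act a b v n‖ ≤ ‖a n‖ * ‖v n‖ + ‖b n‖ * ‖v (-n)‖ :=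
    (norm_add_le _ _).trans (le_of_eq (by simp))
  refine (pow_le_pow_left₀ (norm_nonneg _) h1 2).trans ?_
  have h2 : (‖a n‖ * ‖v n‖ + ‖b n‖ * ‖v (-n)‖) ^ 2
      ≤ (‖a n‖ + ‖b n‖) * (‖a n‖ * ‖v n‖ ^ 2 + ‖b n‖ * ‖v (-n)‖ ^ 2) := by
    nlinarith [mul_nonneg (mul_nonneg (norm_nonneg (a n)) (norm_nonneg (b n)))
      (sq_nonneg (‖v n‖ - ‖v (-n)‖))]
  refine h2.trans ((mul_le_mul_of_nonneg_right (h.le n) (by positivity)).trans (le_of_eq ?_))
  ring

lemma act_summable (h : Mul M a b) (u : H) :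
    Summable (fun n => ‖act a b (coef · u) n‖ ^ 2) ∧
      ∑' n, ‖act a b (coef · u) n‖ ^ 2 ≤ M ^ 2 * ‖u‖ ^ 2 := by
  have hs := (hasSum_sq u).summable
  have hA : Summable fun n => ‖a n‖ * ‖coef n u‖ ^ 2 :=
    (hs.mul_left M).of_nonneg_of_le (fun n => by positivity) fun n =>
      mul_le_mul_of_nonneg_right ((le_add_of_nonneg_right (norm_nonneg _)).trans (h.le n)) (sq_nonneg _)
  have hB : Summable fun n => ‖b n‖ * ‖coef n u‖ ^ 2 :=
    (hs.mul_left M).of_nonneg_of_le (fun n => by positivity) fun n =>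
      mul_le_mul_of_nonneg_right ((le_add_of_nonneg_left (norm_nonneg _)).trans (h.le n)) (sq_nonneg _)
  have e : (fun n => ‖b n‖ * ‖coef (-n) u‖ ^ 2)
      = (fun n => ‖b n‖ * ‖coef n u‖ ^ 2) ∘ (Equiv.neg Z4) := funext fun n => by
    simp [h.even]
  have hB' : Summable fun n => ‖b n‖ * ‖coef (-n) u‖ ^ 2 := by
    rw [e]; exact (Equiv.summable_iff _).2 hB
  have hb := (hA.mul_left M).add (hB'.mul_left M)
  have hsum : Summable (fun n => ‖act a b (coef · u) n‖ ^ 2) :=
    hb.of_nonneg_of_le (fun n => sq_nonneg _) (act_sq h _)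
  refine ⟨hsum, (hsum.tsum_le_tsum (act_sq h _) hb).trans ?_⟩
  rw [(hA.mul_left M).tsum_add (hB'.mul_left M), tsum_mul_left, tsum_mul_left, ← mul_add, e]
  rw [show (∑' n, ((fun n => ‖b n‖ * ‖coef n u‖ ^ 2) ∘ (Equiv.neg Z4)) n)
      = ∑' n, ‖b n‖ * ‖coef n u‖ ^ 2 from
      (Equiv.neg Z4).tsum_eq (fun n => ‖b n‖ * ‖coef n u‖ ^ 2),
    ← hA.tsum_add hB, sq, mul_assoc]
  refine mul_le_mul_of_nonneg_left ?_ h.nonneg
  rw [← (hasSum_sq u).tsum_eq, ← tsum_mul_left]
  refine (hA.add hB).tsum_le_tsum (fun n => ?_) (hs.mul_left M)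
  rw [← add_mul]
  exact mul_le_mul_of_nonneg_right (h.le n) (sq_nonneg _)

/-- The operator of a pair of multipliers. -/
noncomputable def mop (h : Mul M a b) : H →L[ℝ] H :=
  LinearMap.mkContinuous
    { toFun := fun u => ofSeq _ (act_summable h u).1
      map_add' := fun u v => coef_ext fun n => by simp [coef_ofSeq, act]; ring
      map_smul' := fun r u => coef_ext fun n => by
        simp [coef_ofSeq, act, ← Complex.coe_smul]; ring }
    M fun u => by
      refine le_of_pow_le_pow_left₀ two_ne_zero (mul_nonneg h.nonneg (norm_nonneg _)) ?_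
      rw [mul_pow, ← (hasSum_sq _).tsum_eq]
      simp only [LinearMap.coe_mk, AddHom.coe_mk, coef_ofSeq]
      exact (act_summable h u).2

lemma coef_mop (h : Mul M a b) (u : H) (n : Z4) :
    coef n (mop h u) = a n * coef n u + b n * conj (coef (-n) u) :=
  coef_ofSeq (act a b (coef · u)) (act_summable h u).1 n

lemma norm_mop_le (h : Mul M a b) (u : H) : ‖mop h u‖ ≤ M * ‖u‖ :=
  (mop h).le_of_opNorm_le (LinearMap.mkContinuous_norm_le _ h.nonneg _) u

lemma ex_eq (n : Z4) (x : E4) : UnitAddTorus.mFourier n (proj x) = ex n x := by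
  simp only [UnitAddTorus.mFourier, ContinuousMap.coe_mk, proj, fourier_coe_apply, ex, L_apply,
    Finset.mul_sum, Complex.exp_sum]
  refine Finset.prod_congr rfl fun i _ => ?_
  congr 1
  simp
  ring

lemma measurePreserving_shift (τ : E4) :
    MeasurePreserving (fun z : T4 => z + proj τ) volume volume :=
  measurePreserving_add_right volume _

/-- Translation. -/
noncomputable def Tr (τ : E4) (u : H) : H :=
  Lp.compMeasurePreserving (fun z : T4 => z + proj τ) (measurePreserving_shift τ) u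

lemma coef_Tr (τ : E4) (u : H) (n : Z4) : coef n (Tr τ u) = ex n τ * coef n u := by
  rw [coef_eq, coef_eq, UnitAddTorus.mFourierCoeff, UnitAddTorus.mFourierCoeff]
  have e : ∀ z : T4, UnitAddTorus.mFourier (-n) z
      = ex n τ * UnitAddTorus.mFourier (-n) (z + proj τ) := fun z => by
    rw [← proj_lift z, ← show proj (lift z + τ) = proj (lift z) + proj τ from rfl, ex_eq, ex_eq,
      ex_add, ← mul_assoc, mul_comm (ex n τ), mul_assoc, ex_neg n τ]
    rw [Complex.mul_conj', norm_ex]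
    simp
  rw [← integral_const_mul]
  have e2 : (fun t => UnitAddTorus.mFourier (-n) t • (Tr τ u : T4 → ℂ) t) =ᵐ[volume]
      fun t => (fun z => ex n τ * (UnitAddTorus.mFourier (-n) z • (u : T4 → ℂ) z)) (t + proj τ) := by
    filter_upwards [Lp.coeFn_compMeasurePreserving u (measurePreserving_shift τ)] with t ht
    simp only [Function.comp] at ht
    show UnitAddTorus.mFourier (-n) t • (Tr τ u : T4 → ℂ) t = _
    rw [show (Tr τ u : T4 → ℂ) t = (u : T4 → ℂ) (t + proj τ) from ht, e t]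
    simp [mul_assoc]
  rw [integral_congr_ae e2]
  exact integral_add_right_eq_self (fun z => ex n τ * (UnitAddTorus.mFourier (-n) z • (u : T4 → ℂ) z)) _

lemma Tr_mop (h : Mul M a b) (τ : E4) (u : H) : Tr τ (mop h u) = mop h (Tr τ u) := by
  refine coef_ext fun n => ?_
  rw [coef_Tr, coef_mop, coef_mop, coef_Tr, coef_Tr, map_mul, ex_neg, Complex.conj_conj]
  ring

/-- Products with bounded functions. -/
noncomputable def bil (β : ℂ →L[ℝ] ℂ →L[ℝ] ℂ) : C(T4, ℂ) →L[ℝ] H →L[ℝ] H :=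
  (β.holderL (volume : Measure T4) ∞ 2 2).comp
    ((ContinuousMap.toLp (E := ℂ) ∞ volume ℂ).restrictScalars ℝ)

lemma coeFn_bil (β : ℂ →L[ℝ] ℂ →L[ℝ] ℂ) (f : C(T4, ℂ)) (u : H) :
    (bil β f u : T4 → ℂ) =ᵐ[volume] fun z => β (f z) ((u : T4 → ℂ) z) := by
  filter_upwards [β.coeFn_holder (r := 2) (ContinuousMap.toLp (E := ℂ) ∞ volume ℂ f) u,
    ContinuousMap.coeFn_toLp (p := ∞) (𝕜 := ℂ) (volume : Measure T4) f] with z h1 h2
  rw [← h2]; exact h1

lemma coeFn_Tr (τ : E4) (u : H) :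
    (Tr τ u : T4 → ℂ) =ᵐ[volume] fun z => (u : T4 → ℂ) (z + proj τ) :=
  Lp.coeFn_compMeasurePreserving u (measurePreserving_shift τ)

lemma Tr_bil (β : ℂ →L[ℝ] ℂ →L[ℝ] ℂ) (f g : C(T4, ℂ)) (τ : E4)
    (hg : ∀ z, g z = f (z + proj τ)) (u : H) : Tr τ (bil β f u) = bil β g (Tr τ u) := by
  apply Lp.ext
  filter_upwards [coeFn_Tr τ (bil β f u), coeFn_bil β g (Tr τ u), coeFn_Tr τ u,
    (measurePreserving_shift τ).quasiMeasurePreserving.ae (coeFn_bil β f u)] with z h1 h2 h3 h4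
  rw [h1, h2, h3, h4, hg]

lemma Tr_toLp (f g : C(T4, ℂ)) (τ : E4) (hg : ∀ z, g z = f (z + proj τ)) :
    Tr τ (ContinuousMap.toLp (E := ℂ) 2 volume ℂ f) = ContinuousMap.toLp (E := ℂ) 2 volume ℂ g := by
  apply Lp.ext
  filter_upwards [coeFn_Tr τ _, ContinuousMap.coeFn_toLp (p := 2) (𝕜 := ℂ) (volume : Measure T4) g,
    (measurePreserving_shift τ).quasiMeasurePreserving.ae
      (ContinuousMap.coeFn_toLp (p := 2) (𝕜 := ℂ) (volume : Measure T4) f)] with z h1 h2 h3
  rw [h1, h2, h3, hg]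

lemma Tr_add (τ : E4) (u v : H) : Tr τ (u + v) = Tr τ u + Tr τ v :=
  map_add (Lp.compMeasurePreserving _ (measurePreserving_shift τ)) u v

/-- The continuous function of a rapid family. -/
noncomputable def cser (c : Z4 → ℂ) : C(T4, ℂ) := ∑' n, c n • UnitAddTorus.mFourier n

lemma hasSum_cser {c : Z4 → ℂ} (hc : Rap c) :
    HasSum (fun n => c n • UnitAddTorus.mFourier n) (cser c) :=
  (Summable.of_norm (by simpa [norm_smul, UnitAddTorus.mFourier_norm] using hc.norm)).hasSum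

lemma cser_proj {c : Z4 → ℂ} (hc : Rap c) (x : E4) : cser c (proj x) = Ser c x := by
  have h := (ContinuousMap.evalCLM ℂ (proj x)).hasSum (hasSum_cser hc)
  refine (HasSum.congr_fun h fun n => ?_).tsum_eq.symm
  simp [ex_eq, mul_comm]

lemma toLp_cser {c : Z4 → ℂ} (hc : Rap c) {u : H} (hu : ∀ n, coef n u = c n) :
    ContinuousMap.toLp (E := ℂ) 2 volume ℂ (cser c) = u := by
  have h1 := (ContinuousMap.toLp (E := ℂ) 2 (volume : Measure T4) ℂ).hasSum (hasSum_cser hc)
  simp only [map_smul] at h1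
  have h2 := UnitAddTorus.hasSum_mFourier_series_L2 u
  refine h1.unique (h2.congr_fun fun n => ?_)
  rw [← coef_eq, hu n]

lemma coeFn_cser {c : Z4 → ℂ} (hc : Rap c) {u : H} (hu : ∀ n, coef n u = c n) :
    (u : T4 → ℂ) =ᵐ[volume] cser c := by
  rw [← toLp_cser hc hu]
  exact ContinuousMap.coeFn_toLp _ _

lemma eq_of_ae {f g : T4 → ℂ} (hf : Continuous f) (hg : Continuous g)
    (h : f =ᵐ[volume] g) : f = g :=
  Measure.eq_of_ae_eq h hf hg

end Vale.Agent.P204.Leaf
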