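import Vale.Agent.P204.Leaf.System
import Vale.Agent.P204.ComplexFibre

/-! Compatible symplectic forms for almost complex structures on the four-torus preserving a
constant plane field (P204). -/

namespace Vale.Agent.P204.Leaf

open scoped ContDiff ComplexConjugate Matrix
open Cx (M2 lof aof bof muC nuC gA gB sq_neg_one)

abbrev M4 := Matrix (Fin 4) (Fin 4) ℝ

lemma smooth_mul {m n p : Type*} [Fintype n] {F : E4 → Matrix m n ℝ} {G : E4 → Matrix n p ℝ}
    (hF : ∀ a b, ContDiff ℝ ∞ fun x => F x a b) (hG : ∀ a b, ContDiff ℝ ∞ fun x => G x a b) :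
    ∀ a b, ContDiff ℝ ∞ fun x => (F x * G x) a b := fun a b => by
  simp only [Matrix.mul_apply]
  exact ContDiff.sum fun c _ => (hF a c).mul (hG c b)

lemma smooth_mk {f g : E4 → ℝ} (hf : ContDiff ℝ ∞ f) (hg : ContDiff ℝ ∞ g) :
    ContDiff ℝ ∞ fun x => (⟨f x, g x⟩ : ℂ) := by
  simp only [Complex.mk_eq_add_mul_I]
  exact (Complex.ofRealCLM.contDiff.comp hf).add
    ((Complex.ofRealCLM.contDiff.comp hg).mul contDiff_const)

lemma smooth_abof {M : E4 → M2} (hM : ∀ a b, ContDiff ℝ ∞ fun x => M x a b) :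
    ContDiff ℝ ∞ (fun x => aof (M x)) ∧ ContDiff ℝ ∞ fun x => bof (M x) :=
  ⟨smooth_mk (((hM 0 0).add (hM 1 1)).div_const 2) (((hM 1 0).sub (hM 0 1)).div_const 2),
    smooth_mk (((hM 0 0).sub (hM 1 1)).div_const 2) (((hM 1 0).add (hM 0 1)).div_const 2)⟩

lemma smooth_g {i j : E4 → M2} (si : ∀ a b, ContDiff ℝ ∞ fun x => i x a b)
    (sj : ∀ a b, ContDiff ℝ ∞ fun x => j x a b) (a : ℂ) :
    ContDiff ℝ ∞ (fun x => gA (i x) (j x) a) ∧ ContDiff ℝ ∞ fun x => gB (i x) (j x) a := by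
  have h : ∀ c d, ContDiff ℝ ∞ fun x => Cx.proj (i x) (j x) (Cx.conf a) c d := fun c d => by
    simp only [Cx.proj, Matrix.sub_apply]
    have h1 : ∀ p q, ContDiff ℝ ∞ fun x : E4 => (i x * Cx.conf a) p q :=
      smooth_mul (G := fun _ : E4 => Cx.conf a) si fun _ _ => contDiff_const
    have h2 : ContDiff ℝ ∞ fun x : E4 => (i x * Cx.conf a * j x) c d :=
      smooth_mul (F := fun x : E4 => i x * Cx.conf a) h1 sj c d
    exact contDiff_const.sub h2
  exact smooth_abof (M := fun x => Cx.proj (i x) (j x) (Cx.conf a)) h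

/-- The equation `i G - G j = t K` from its Beltrami form. -/
lemma twisted {i j K : M2} (hi : i * i = -1) (hj : j * j = -1) (hσ : 0 < j 1 0 * i 1 0)
    (hK : K * j = -(i * K)) {t : ℝ} {P Q : ℂ}
    (h : Q = muC i j * P + nuC i j * conj P + (bof ((-(1 / 2 : ℝ)) • (i * K))
      - muC i j * aof ((-(1 / 2 : ℝ)) • (i * K))
      - nuC i j * conj (aof ((-(1 / 2 : ℝ)) • (i * K)))) * (t : ℂ)) :
    i * lof P Q - lof P Q * j = t • K := by
  set L0 := (-(1 / 2 : ℝ)) • (i * K) with hL0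
  obtain ⟨a, ha⟩ := Cx.gA_surj hi hj hσ (P - (t : ℂ) * aof L0)
  have hb : gB i j a = Q - (t : ℂ) * bof L0 := by
    rw [Cx.gB_eq hi hj hσ, ha, h, map_sub, map_mul, Complex.conj_ofReal]; ring
  have e : lof P Q = t • L0 + Cx.proj i j (Cx.conf a) := by
    rw [← Cx.lof_eq (Cx.proj i j (Cx.conf a)), show aof (Cx.proj i j (Cx.conf a)) = _ from ha,
      show bof (Cx.proj i j (Cx.conf a)) = _ from hb]
    ext c d
    fin_cases c <;> fin_cases d <;> simp [lof, aof, bof] <;> ring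
  have q : i * (i * K) = -K := by rw [← Matrix.mul_assoc, hi]; simp
  have q2 : i * K * j = K := by rw [Matrix.mul_assoc, hK, Matrix.mul_neg, q, neg_neg]
  rw [e, Matrix.mul_add, Matrix.add_mul, Cx.proj_mem hi hj, add_sub_add_right_eq_sub]
  simp only [hL0, Matrix.mul_smul, Matrix.smul_mul, q, q2]
  ext c d; simp; ring

/-- The form in the frame. -/
def formF (f t : ℝ) (G : M2) : M4 :=
  !![0, f, -G 1 0, G 0 0;
     -f, 0, -G 1 1, G 0 1;
     G 1 0, G 1 1, 0, t;
     -G 0 0, -G 0 1, -t, 0]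

variable {A B : M4}

lemma Per.pair {α β γ : Type*} {f : E4 → α} {g : E4 → β} (hf : Per f) (hg : Per g)
    (F : α → β → γ) : Per fun x => F (f x) (g x) := fun x k => by
  simp only [hf x k, hg x k]


lemma fderiv_formF {f t : E4 → ℝ} {G : E4 → M2} (sf : ContDiff ℝ ∞ f) (st : ContDiff ℝ ∞ t)
    (sG : ∀ a b, ContDiff ℝ ∞ fun x => G x a b) (x v : E4) (a b : Fin 4) :
    fderiv ℝ (fun y => formF (f y) (t y) (G y) a b) x v
      = formF (fderiv ℝ f x v) (fderiv ℝ t x v)
        (Matrix.of fun p q => fderiv ℝ (fun y => G y p q) x v) a b := by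
  fin_cases a <;> fin_cases b <;> simp [formF, fderiv_fun_neg]

/-- The algebra of closedness in a frame. -/
lemma formF_cyc (F T : Fin 4 → ℝ) (D : Fin 4 → M2)
    (e012 : -D 0 1 1 + D 1 1 0 + F 2 = 0) (e013 : D 0 0 1 - D 1 0 0 + F 3 = 0)
    (e023 : T 0 - D 2 0 0 - D 3 1 0 = 0) (e123 : T 1 - D 2 0 1 - D 3 1 1 = 0)
    (p a b : Fin 4) :
    formF (F p) (T p) (D p) a b + formF (F a) (T a) (D a) b p + formF (F b) (T b) (D b) p a = 0 := by
  fin_cases p <;> fin_cases a <;> fin_cases b <;> simp [formF] <;> linarith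

/-- The mixed components, the leaf component and the base component of the form. -/
theorem exists_G (hAB : A * B = 1) {i j K : E4 → M2} (si : ∀ p q, ContDiff ℝ ∞ fun x => i x p q)
    (sj : ∀ p q, ContDiff ℝ ∞ fun x => j x p q) (sK : ∀ p q, ContDiff ℝ ∞ fun x => K x p q)
    (pi' : Per i) (pj : Per j) (pK : Per K) (hi : ∀ x, i x * i x = -1) (hj : ∀ x, j x * j x = -1)
    (hK : ∀ x, K x * j x = -(i x * K x)) (hσ : ∀ x, 0 < j x 1 0 * i x 1 0) :
    ∃ (G : E4 → M2) (t F : E4 → ℝ), (∀ p q, ContDiff ℝ ∞ fun x => G x p q) ∧ ContDiff ℝ ∞ t ∧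
      ContDiff ℝ ∞ F ∧ Per G ∧ Per t ∧ Per F ∧ (∀ x, 0 < t x) ∧
      (∀ x, i x * G x - G x * j x = t x • K x) ∧
      ∀ x, let D := fun k => Matrix.of fun p q => fderiv ℝ (fun y => G y p q) x (frame A k);
        -D 0 1 1 + D 1 1 0 + fderiv ℝ F x (frame A 2) = 0 ∧
        D 0 0 1 - D 1 0 0 + fderiv ℝ F x (frame A 3) = 0 ∧
        fderiv ℝ t x (frame A 0) - D 2 0 0 - D 3 1 0 = 0 ∧
        fderiv ℝ t x (frame A 1) - D 2 0 1 - D 3 1 1 = 0 := by
  set L0 : E4 → M2 := fun x => (-(1 / 2 : ℝ)) • (i x * K x) with hL0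
  set μ : E4 → ℂ := fun x => muC (i x) (j x) with hμ
  set ν : E4 → ℂ := fun x => nuC (i x) (j x) with hν
  set g : E4 → ℂ := fun x => bof (L0 x) - μ x * aof (L0 x) - ν x * conj (aof (L0 x)) with hg
  have cj : ∀ {f : E4 → ℂ}, ContDiff ℝ ∞ f → ContDiff ℝ ∞ fun u => conj (f u) :=
    fun {f} hf => Complex.conjCLE.contDiff.comp hf
  have g1 := smooth_g si sj 1
  have gI := smooth_g si sj Complex.I
  have sd : ContDiff ℝ ∞ fun u => Cx.den (i u) (j u) :=
    (g1.1.mul (cj gI.1)).sub (gI.1.mul (cj g1.1))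
  have hdn : ∀ u, Cx.den (i u) (j u) ≠ 0 := fun u => Cx.den_ne (hi u) (hj u) (hσ u)
  have sμ : ContDiff ℝ ∞ μ := by
    simp only [hμ, muC, div_eq_mul_inv]
    exact ((g1.2.mul (cj gI.1)).sub (gI.2.mul (cj g1.1))).mul (sd.inv hdn)
  have sν : ContDiff ℝ ∞ ν := by
    simp only [hν, nuC, div_eq_mul_inv]
    exact ((g1.1.mul gI.2).sub (gI.1.mul g1.2)).mul (sd.inv hdn)
  have sL0 : ∀ c d, ContDiff ℝ ∞ fun u => L0 u c d := fun c d =>
    contDiff_const.mul (smooth_mul si sK c d)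
  have sa := smooth_abof sL0
  have sg : ContDiff ℝ ∞ g := (sa.2.sub (sμ.mul sa.1)).sub (sν.mul (cj sa.1))
  have pμ : Per μ := pi'.pair pj muC
  have pν : Per ν := pi'.pair pj nuC
  have pg : Per g := fun x k => by simp only [hg, hL0, pμ x k, pν x k, pi' x k, pK x k]
  obtain ⟨S⟩ := exists_sol hAB sμ sν sg pμ pν pg fun x => Cx.coeff_lt (hi x) (hj x) (hσ x)
  set G : E4 → M2 := fun x => lof (S.P x) (S.Q x) with hG
  set t : E4 → ℝ := fun x => 1 + S.T x with ht
  have tpos : ∀ x, 0 < t x := fun x => by have := S.T_gt x; simp only [ht]; linarith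
  have eG : ∀ x, i x * G x - G x * j x = t x • K x := fun x => by
    refine twisted (hi x) (hj x) (hσ x) (hK x) ?_
    rw [show ((t x : ℝ) : ℂ) = 1 + (S.T x : ℂ) by simp [ht]]
    exact S.eq x
  have e0 : (fun v => G v 0 0) = fun v => Complex.reCLM (S.P v + S.Q v) :=
    funext fun v => by simp [hG, lof]
  have e1 : (fun v => G v 1 0) = fun v => Complex.imCLM (S.P v + S.Q v) :=
    funext fun v => by simp [hG, lof]
  have e2 : (fun v => G v 0 1) = fun v => Complex.imCLM (S.Q v - S.P v) :=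
    funext fun v => by simp [hG, lof]
  have e3 : (fun v => G v 1 1) = fun v => Complex.reCLM (S.P v - S.Q v) :=
    funext fun v => by simp [hG, lof]
  have t1 := S.sP.add S.sQ
  have sG : ∀ c d, ContDiff ℝ ∞ fun x => G x c d := fun c d => by
    fin_cases c <;> fin_cases d
    · exact e0 ▸ Complex.reCLM.contDiff.comp t1
    · exact e2 ▸ Complex.imCLM.contDiff.comp (S.sQ.sub S.sP)
    · exact e1 ▸ Complex.imCLM.contDiff.comp t1
    · exact e3 ▸ Complex.reCLM.contDiff.comp (S.sP.sub S.sQ)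
  have pG : Per G := S.pP.pair S.pQ lof
  have pt : Per t := S.pT.comp fun z => 1 + z
  have st : ContDiff ℝ ∞ t := contDiff_const.add S.sT
  refine ⟨G, t, S.F, sG, st, S.sF, pG, pt, S.pF, tpos, eG, ?_⟩
  · intro x D
    have d0 : ∀ v, fderiv ℝ (fun y => G y 0 0) x v = (fderiv ℝ S.P x v + fderiv ℝ S.Q x v).re :=
      fun v => by
        rw [e0]
        exact DFunLike.congr_fun (Complex.reCLM.hasFDerivAt.comp x
          (((S.sP.differentiable (by simp)) x).hasFDerivAt.add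
            ((S.sQ.differentiable (by simp)) x).hasFDerivAt)).fderiv v
    have d1 : ∀ v, fderiv ℝ (fun y => G y 1 0) x v = (fderiv ℝ S.P x v + fderiv ℝ S.Q x v).im :=
      fun v => by
        rw [e1]
        exact DFunLike.congr_fun (Complex.imCLM.hasFDerivAt.comp x
          (((S.sP.differentiable (by simp)) x).hasFDerivAt.add
            ((S.sQ.differentiable (by simp)) x).hasFDerivAt)).fderiv v
    have d2 : ∀ v, fderiv ℝ (fun y => G y 0 1) x v = (fderiv ℝ S.Q x v - fderiv ℝ S.P x v).im :=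
      fun v => by
        rw [e2]
        exact DFunLike.congr_fun (Complex.imCLM.hasFDerivAt.comp x
          (((S.sQ.differentiable (by simp)) x).hasFDerivAt.sub
            ((S.sP.differentiable (by simp)) x).hasFDerivAt)).fderiv v
    have d3 : ∀ v, fderiv ℝ (fun y => G y 1 1) x v = (fderiv ℝ S.P x v - fderiv ℝ S.Q x v).re :=
      fun v => by
        rw [e3]
        exact DFunLike.congr_fun (Complex.reCLM.hasFDerivAt.comp x
          (((S.sP.differentiable (by simp)) x).hasFDerivAt.sub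
            ((S.sQ.differentiable (by simp)) x).hasFDerivAt)).fderiv v
    have dt : ∀ v, fderiv ℝ t x v = fderiv ℝ S.T x v := fun v => by
      simp only [ht, fderiv_const_add]
    have a1 := congrArg Complex.re (S.closed_a x)
    have a2 := congrArg Complex.im (S.closed_a x)
    have b1 := congrArg Complex.re (S.closed_b x)
    have b2 := congrArg Complex.im (S.closed_b x)
    simp at a1 a2 b1 b2
    refine ⟨?_, ?_, ?_, ?_⟩ <;> simp [D, d0, d1, d2, d3, dt] <;> linarith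

/-- Closedness is seen in a frame. -/
theorem closed_pull (hAB : A * B = 1) (r : ℝ) {W' : E4 → M4}
    (sW' : ∀ a b, ContDiff ℝ ∞ fun x => W' x a b)
    (cyc : ∀ x p a b, fderiv ℝ (fun y => W' y a b) x (frame A p)
      + fderiv ℝ (fun y => W' y b p) x (frame A a) + fderiv ℝ (fun y => W' y p a) x (frame A b) = 0)
    (x : E4) (a b c : Fin 4) :
    fderiv ℝ (fun y => (r • (Bᵀ * W' y * B)) b c) x (Pi.single a 1) +
      fderiv ℝ (fun y => (r • (Bᵀ * W' y * B)) c a) x (Pi.single b 1) +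
      fderiv ℝ (fun y => (r • (Bᵀ * W' y * B)) a b) x (Pi.single c 1) = 0 := by
  set W : E4 → M4 := fun y => r • (Bᵀ * W' y * B) with hW
  set u : E4 → Fin 4 → Fin 4 → Fin 4 → ℝ :=
    fun x p a b => fderiv ℝ (fun y => W' y a b) x (frame A p) with hu
  have dW : ∀ x a b c, fderiv ℝ (fun y => W y b c) x (Pi.single a 1)
      = r * ∑ p, ∑ q, ∑ s, B p a * B q b * B s c * u x p q s := by
    intro x a b c
    have hea : (Pi.single a (1 : ℝ) : E4) = ∑ p, B p a • frame A p := by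
      funext k
      have := congrFun (congrFun hAB k) a
      simp only [Matrix.mul_apply, Matrix.one_apply] at this
      simp [frame, Finset.sum_apply, Pi.single_apply, ← this, mul_comm]
    have hfun : (fun y => W y b c) = fun y => ∑ q, ∑ s, (r * (B q b * B s c)) * W' y q s := by
      funext y
      simp only [hW, Matrix.smul_apply, Matrix.mul_apply, Matrix.transpose_apply, smul_eq_mul,
        Finset.sum_mul, Finset.mul_sum]
      rw [Finset.sum_comm]
      exact Finset.sum_congr rfl fun q _ => Finset.sum_congr rfl fun s _ => by ring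
    have hd : ∀ q s, DifferentiableAt ℝ (fun y => W' y q s) x := fun q s =>
      (sW' q s).differentiable (by simp) x
    rw [hfun, hea, map_sum, Finset.mul_sum]
    refine Finset.sum_congr rfl fun p _ => ?_
    rw [map_smul, fderiv_fun_sum fun q _ => DifferentiableAt.fun_sum fun s _ => (hd q s).const_mul _]
    simp only [ContinuousLinearMap.sum_apply, smul_eq_mul, Finset.mul_sum]
    refine Finset.sum_congr rfl fun q _ => ?_
    rw [fderiv_fun_sum fun s _ => (hd q s).const_mul _, ContinuousLinearMap.sum_apply,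
      Finset.mul_sum]
    refine Finset.sum_congr rfl fun s _ => ?_
    rw [fderiv_const_mul (hd q s)]
    simp only [hu, ContinuousLinearMap.smul_apply, smul_eq_mul]
    ring
  have closed : ∀ x a b c, fderiv ℝ (fun y => W y b c) x (Pi.single a 1) +
      fderiv ℝ (fun y => W y c a) x (Pi.single b 1) +
      fderiv ℝ (fun y => W y a b) x (Pi.single c 1) = 0 := by
    intro x a b c
    rw [dW, dW, dW]
    have r1 : ∑ p, ∑ q, ∑ s, B p b * B q c * B s a * u x p q s
        = ∑ p, ∑ q, ∑ s, B p a * B q b * B s c * u x q s p := by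
      conv_lhs => arg 2; ext p; rw [Finset.sum_comm]
      rw [Finset.sum_comm]
      exact Finset.sum_congr rfl fun _ _ => Finset.sum_congr rfl fun _ _ =>
        Finset.sum_congr rfl fun _ _ => by ring
    have r2 : ∑ p, ∑ q, ∑ s, B p c * B q a * B s b * u x p q s
        = ∑ p, ∑ q, ∑ s, B p a * B q b * B s c * u x s p q := by
      rw [Finset.sum_comm]
      refine Finset.sum_congr rfl fun q _ => ?_
      rw [Finset.sum_comm]
      exact Finset.sum_congr rfl fun _ _ => Finset.sum_congr rfl fun _ _ => by ring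
    rw [r1, r2, ← mul_add, ← mul_add]
    simp only [← Finset.sum_add_distrib, ← mul_add]
    have hc : ∀ p q s, u x p q s + u x q s p + u x s p q = 0 := fun p q s => cyc x p q s
    simp [hc]
  exact closed x a b c

/-- Positivity of the diagonal part. -/
lemma pos_frame {i j : M2} (hi : i * i = -1) (hj : j * j = -1) {r s t : ℝ} (hi0 : 0 < i 1 0 * r)
    (hj0 : 0 < j 1 0 * r) (hs : 0 < s) (ht : 0 < t) (a b c d : ℝ) (h : a ≠ 0 ∨ b ≠ 0 ∨ c ≠ 0 ∨ d ≠ 0) :
    0 < r * (s * (j 1 0 * a ^ 2 - 2 * j 0 0 * (a * b) - j 0 1 * b ^ 2)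
      + t * (i 1 0 * c ^ 2 - 2 * i 0 0 * (c * d) - i 0 1 * d ^ 2)) := by
  have pos : ∀ {M : M2}, M * M = -1 → 0 < M 1 0 * r → ∀ a b : ℝ, (a ≠ 0 ∨ b ≠ 0) →
      0 < r * (M 1 0 * a ^ 2 - 2 * M 0 0 * (a * b) - M 0 1 * b ^ 2) := fun {M} hM hr a b hab => by
    have h := mul_pos hr (Cx.quad_pos hM hab)
    have h2 : (0 : ℝ) < M 1 0 ^ 2 := by
      have := (sq_neg_one hM).2.2
      positivity
    by_contra hn
    push_neg at hn
    nlinarith [mul_nonpos_of_nonpos_of_nonneg hn h2.le]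
  have nn : ∀ {M : M2}, M * M = -1 → 0 < M 1 0 * r → ∀ a b : ℝ,
      0 ≤ r * (M 1 0 * a ^ 2 - 2 * M 0 0 * (a * b) - M 0 1 * b ^ 2) := fun {M} hM hr a b => by
    by_cases hab : a ≠ 0 ∨ b ≠ 0
    · exact (pos hM hr a b hab).le
    · push_neg at hab; simp [hab.1, hab.2]
  rw [mul_add, mul_left_comm r s, mul_left_comm r t]
  by_cases hb : a ≠ 0 ∨ b ≠ 0
  · exact add_pos_of_pos_of_nonneg (mul_pos hs (pos hj hj0 _ _ hb))
      (mul_nonneg ht.le (nn hi hi0 _ _))
  · exact add_pos_of_nonneg_of_pos (mul_nonneg hs.le (nn hj hj0 _ _))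
      (mul_pos ht (pos hi hi0 _ _ (by tauto)))

/-- The block identities. -/
lemma block_sq {M : M4} (z : M 0 2 = 0 ∧ M 0 3 = 0 ∧ M 1 2 = 0 ∧ M 1 3 = 0) (hM : M * M = -1) :
    let i : M2 := !![M 2 2, M 2 3; M 3 2, M 3 3]
    let j : M2 := !![M 0 0, M 0 1; M 1 0, M 1 1]
    let K : M2 := !![M 2 0, M 2 1; M 3 0, M 3 1]
    i * i = -1 ∧ j * j = -1 ∧ K * j = -(i * K) := by
  have h : ∀ a b, (M * M) a b = (-1 : M4) a b := fun a b => by rw [hM]
  obtain ⟨z1, z2, z3, z4⟩ := z
  have h00 := h 0 0; have h01 := h 0 1; have h10 := h 1 0; have h11 := h 1 1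
  have h20 := h 2 0; have h21 := h 2 1; have h30 := h 3 0; have h31 := h 3 1
  have h22 := h 2 2; have h23 := h 2 3; have h32 := h 3 2; have h33 := h 3 3
  simp [Matrix.mul_apply, Fin.sum_univ_four, z1, z2, z3, z4] at h00 h01 h10 h11 h20 h21 h30 h31 h22 h23 h32 h33
  refine ⟨?_, ?_, ?_⟩ <;> ext p q <;> fin_cases p <;> fin_cases q <;>
    simp [Matrix.mul_apply, Fin.sum_univ_two] <;> linarith

/-- The compatibility and the sign of the form in the frame. -/
lemma pointwise_frame {M : M4} {G : M2} {r t f : ℝ}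
    (z : M 0 2 = 0 ∧ M 0 3 = 0 ∧ M 1 2 = 0 ∧ M 1 3 = 0) (hM : M * M = -1)
    (hi0 : 0 < M 3 2 * r) (hj0 : 0 < M 1 0 * r) (ht : 0 < t)
    (hf : (G 0 0 * G 1 1 - G 0 1 * G 1 0) / t < f)
    (hG : (!![M 2 2, M 2 3; M 3 2, M 3 3] : M2) * G - G * !![M 0 0, M 0 1; M 1 0, M 1 1]
      = t • !![M 2 0, M 2 1; M 3 0, M 3 1]) :
    Mᵀ * formF f t G * M = formF f t G ∧
      ∀ v : Fin 4 → ℝ, v ≠ 0 → 0 < r * (v ⬝ᵥ formF f t G *ᵥ (M *ᵥ v)) := by
  obtain ⟨hii, hjj, -⟩ := block_sq z hM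
  set L : M2 := t⁻¹ • G with hL
  have hE : ∀ p q, ((!![M 2 2, M 2 3; M 3 2, M 3 3] : M2) * L - L * !![M 0 0, M 0 1; M 1 0, M 1 1]) p q
      = (!![M 2 0, M 2 1; M 3 0, M 3 1] : M2) p q := fun p q => by
    rw [hL, Matrix.mul_smul, Matrix.smul_mul, ← smul_sub, hG, smul_smul, inv_mul_cancel₀ ht.ne',
      one_smul]
  have E00 := hE 0 0
  have E01 := hE 0 1
  have E10 := hE 1 0
  have E11 := hE 1 1
  have tj := (sq_neg_one hjj).1
  have ti := (sq_neg_one hii).1
  simp [Matrix.mul_apply, Matrix.vecMul, dotProduct, Fin.sum_univ_two] at tj ti E00 E01 E10 E11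
  set s := f - (G 0 0 * G 1 1 - G 0 1 * G 1 0) / t with hs
  obtain ⟨c1, c2⟩ := pointwise (L := L) s t z hM tj ti E00.symm E01.symm E10.symm E11.symm
    (W := formF f t G) (by
      have ht' := ht.ne'
      ext a b
      fin_cases a <;> fin_cases b <;>
        simp [formF, hs, hL, ht'] <;> field_simp <;> ring)
  refine ⟨c1, fun v hv => ?_⟩
  rw [c2 v]
  refine pos_frame hii hjj hi0 hj0 (by simp only [hs]; linarith) ht (v 0) (v 1) _ _ ?_
  by_contra hc
  push_neg at hc
  obtain ⟨a0, a1, a2, a3⟩ := hc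
  simp [a0, a1] at a2 a3
  apply hv
  funext k
  fin_cases k <;> simp [a0, a1, a2, a3]

/-- The construction in an adapted frame. -/
theorem framed (hAB : A * B = 1) (hBA : B * A = 1) (J : E4 → M4)
    (hsm : ∀ a b, ContDiff ℝ ∞ fun x => J x a b) (hJ : ∀ x, J x * J x = -1)
    (hper : ∀ x k, J (x + Pi.single k 1) = J x)
    (hfib : ∀ x, (B * J x * A) 0 2 = 0 ∧ (B * J x * A) 0 3 = 0 ∧ (B * J x * A) 1 2 = 0
      ∧ (B * J x * A) 1 3 = 0)
    (hσ0 : 0 < (B * J 0 * A) 1 0 * (B * J 0 * A) 3 2) :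
    ∃ W : E4 → M4, IsClosedForm W ∧
      (∀ x v, v ≠ 0 → 0 < v ⬝ᵥ W x *ᵥ (J x *ᵥ v)) ∧ ∀ x, (J x)ᵀ * W x * J x = W x := by
  set J' : E4 → M4 := fun x => B * J x * A with hJ'
  have pJ : Per J' := fun x k => by simp only [hJ', hper x k]
  have sJ : ∀ a b, ContDiff ℝ ∞ fun x => J' x a b :=
    smooth_mul (smooth_mul (fun _ _ => contDiff_const) hsm) fun _ _ => contDiff_const
  have hJ2 : ∀ x, J' x * J' x = -1 := fun x => by
    have : B * J x * A * (B * J x * A) = B * (J x * J x) * A := by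
      simp only [Matrix.mul_assoc]
      rw [← Matrix.mul_assoc A B, hAB, Matrix.one_mul]
    simp only [hJ']
    rw [this, hJ, Matrix.mul_neg, Matrix.mul_one, Matrix.neg_mul, hBA]
  set j : E4 → M2 := fun x => !![J' x 0 0, J' x 0 1; J' x 1 0, J' x 1 1] with hjd
  set i : E4 → M2 := fun x => !![J' x 2 2, J' x 2 3; J' x 3 2, J' x 3 3] with hid
  set K : E4 → M2 := fun x => !![J' x 2 0, J' x 2 1; J' x 3 0, J' x 3 1] with hKd
  have smk : ∀ a b c d : Fin 4, ∀ p q, ContDiff ℝ ∞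
      fun x => (!![J' x a c, J' x a d; J' x b c, J' x b d] : M2) p q := fun a b c d p q => by
    fin_cases p <;> fin_cases q <;> simp [sJ]
  have si : ∀ p q, ContDiff ℝ ∞ fun x => i x p q := smk 2 3 2 3
  have sj : ∀ p q, ContDiff ℝ ∞ fun x => j x p q := smk 0 1 0 1
  have sK : ∀ p q, ContDiff ℝ ∞ fun x => K x p q := smk 2 3 0 1
  have key : ∀ x, i x * i x = -1 ∧ j x * j x = -1 ∧ K x * j x = -(i x * K x) := fun x =>
    block_sq (hfib x) (hJ2 x)
  have sgn : ∀ {M : E4 → M2}, (∀ c d, ContDiff ℝ ∞ fun u => M u c d) →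
      (∀ u, M u * M u = -1) → ∀ u, 0 < M u 1 0 * M 0 1 0 := fun {M} sM hM u => by
    by_contra hn
    push_neg at hn
    have hc : Continuous fun v => M v 1 0 * M 0 1 0 := (sM 1 0).continuous.mul continuous_const
    obtain ⟨c, hc0⟩ := intermediate_value_univ u 0 hc ⟨hn, mul_self_nonneg _⟩
    rcases mul_eq_zero.1 hc0 with h | h <;> exact (sq_neg_one (hM _)).2.2 h
  set r := i 0 1 0 with hr
  have hi0 : ∀ x, 0 < i x 1 0 * r := sgn si fun u => (key u).1
  have hj0 : ∀ x, 0 < j x 1 0 * r := fun x => by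
    have h1 := sgn sj (fun u => (key u).2.1) x
    have h2 : 0 < j 0 1 0 * r := by simpa [hr, hjd, hid, hJ'] using hσ0
    have h3 : 0 < j x 1 0 * r * (j 0 1 0) ^ 2 := by
      have := mul_pos h1 h2; linarith
    exact pos_of_mul_pos_left h3 (sq_nonneg _)
  have hσ : ∀ x, 0 < j x 1 0 * i x 1 0 := fun x => by
    have h := mul_pos (hi0 x) (hj0 x)
    have h3 : 0 < j x 1 0 * i x 1 0 * r ^ 2 := by linarith
    exact pos_of_mul_pos_left h3 (sq_nonneg _)
  have pi' : Per i := pJ.comp fun M : M4 => !![M 2 2, M 2 3; M 3 2, M 3 3]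
  have pj : Per j := pJ.comp fun M : M4 => !![M 0 0, M 0 1; M 1 0, M 1 1]
  have pK : Per K := pJ.comp fun M : M4 => !![M 2 0, M 2 1; M 3 0, M 3 1]
  obtain ⟨G, t, F, sG, st, sF, pG, pt, pF, tpos, eG, hD⟩ := exists_G hAB si sj sK pi' pj pK
    (fun x => (key x).1) (fun x => (key x).2.1) (fun x => (key x).2.2) hσ
  set q : E4 → ℝ := fun x => (G x 0 0 * G x 1 1 - G x 0 1 * G x 1 0) / t x - F x with hq
  have sq' : ContDiff ℝ ∞ q :=
    ((((sG 0 0).mul (sG 1 1)).sub ((sG 0 1).mul (sG 1 0))).div st fun x => (tpos x).ne').sub sF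
  have pq : Per q := fun x k => by simp only [hq, pG x k, pt x k, pF x k]
  obtain ⟨xq, hxq⟩ := exists_sup pq sq'.continuous
  set ca := q xq + 1 with hca
  have sf : ContDiff ℝ ∞ fun x => ca + F x := contDiff_const.add sF
  set W' : E4 → M4 := fun x => formF (ca + F x) (t x) (G x) with hW'
  set W : E4 → M4 := fun x => r • (Bᵀ * W' x * B) with hW
  have sW' : ∀ a b, ContDiff ℝ ∞ fun x => W' x a b := fun a b => by
    fin_cases a <;> fin_cases b <;> simp [hW', formF]
    all_goals first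
      | exact contDiff_const
      | exact sf
      | exact sF.neg.add contDiff_const
      | exact st
      | exact st.neg
      | exact sG _ _
      | exact (sG _ _).neg
  have cyc : ∀ x p a b, fderiv ℝ (fun y => W' y a b) x (frame A p)
      + fderiv ℝ (fun y => W' y b p) x (frame A a)
      + fderiv ℝ (fun y => W' y p a) x (frame A b) = 0 := fun x p a b => by
    simp only [hW', fderiv_formF sf st sG]
    obtain ⟨h1, h2, h3, h4⟩ := hD x
    exact formF_cyc (fun k => fderiv ℝ (fun y => ca + F y) x (frame A k))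
      (fun k => fderiv ℝ t x (frame A k))
      (fun k => Matrix.of fun p q => fderiv ℝ (fun y => G y p q) x (frame A k))
      (by simpa only [fderiv_const_add] using h1) (by simpa only [fderiv_const_add] using h2)
      h3 h4 p a b
  have pW : ∀ x k, W (x + Pi.single k 1) = W x := fun x k => by
    simp only [hW, hW', pG x k, pt x k, pF x k]
  have sW : ∀ a b, ContDiff ℝ ∞ fun x => W x a b := fun a b =>
    contDiff_const.mul (smooth_mul (F := fun x : E4 => Bᵀ * W' x) (G := fun _ : E4 => B)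
      (smooth_mul (F := fun _ : E4 => Bᵀ) (G := W') (fun _ _ => contDiff_const) sW')
      (fun _ _ => contDiff_const) a b)
  have skW : ∀ x a b, W x b a = -W x a b := fun x a b => by
    have hs : (W' x)ᵀ = -(W' x) := by
      ext p q; fin_cases p <;> fin_cases q <;> simp [hW', formF]
    have h : (W x)ᵀ = -(W x) := by
      simp only [hW, Matrix.transpose_smul, Matrix.transpose_mul, Matrix.transpose_transpose, hs,
        Matrix.mul_assoc, Matrix.mul_neg, Matrix.neg_mul, smul_neg]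
    simpa using congrFun (congrFun h a) b
  have pw : ∀ x, (J' x)ᵀ * W' x * J' x = W' x ∧ ∀ v : Fin 4 → ℝ, v ≠ 0 →
      0 < r * (v ⬝ᵥ W' x *ᵥ (J' x *ᵥ v)) := fun x => by
    refine pointwise_frame (hfib x) (hJ2 x) ?_ ?_ (tpos x) ?_ (eG x)
    · simpa [hid] using hi0 x
    · simpa [hjd] using hj0 x
    · have := hxq x
      simp only [hq, hca] at this ⊢
      linarith
  have BJ : ∀ x, B * J x = J' x * B := fun x => by
    simp only [hJ', Matrix.mul_assoc, hAB, Matrix.mul_one]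
  refine ⟨W, ⟨sW, skW, pW, closed_pull hAB r sW' cyc⟩, fun x v hv => ?_, fun x => ?_⟩
  · have hBv : B *ᵥ v ≠ 0 := fun h => hv (by
      have := congrArg (A *ᵥ ·) h
      simpa [Matrix.mulVec_mulVec, hAB] using this)
    have e : v ⬝ᵥ W x *ᵥ (J x *ᵥ v) = r * ((B *ᵥ v) ⬝ᵥ W' x *ᵥ (J' x *ᵥ (B *ᵥ v))) := by
      simp only [hW, Matrix.smul_mulVec, dotProduct_smul, smul_eq_mul]
      rw [Matrix.mulVec_mulVec v (J' x) B, ← BJ, ← Matrix.mulVec_mulVec v B (J x),
        ← Matrix.mulVec_mulVec, ← Matrix.mulVec_mulVec, Matrix.dotProduct_mulVec v Bᵀ,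
        Matrix.vecMul_transpose]
    rw [e]
    exact (pw x).2 _ hBv
  · simp only [hW, Matrix.mul_smul, Matrix.smul_mul]
    congr 1
    calc (J x)ᵀ * (Bᵀ * W' x * B) * J x = (B * J x)ᵀ * W' x * (B * J x) := by
          simp only [Matrix.transpose_mul, Matrix.mul_assoc]
      _ = (J' x * B)ᵀ * W' x * (J' x * B) := by rw [BJ]
      _ = Bᵀ * ((J' x)ᵀ * W' x * J' x) * B := by simp only [Matrix.transpose_mul, Matrix.mul_assoc]
      _ = _ := by rw [(pw x).1]

/-- An adapted frame exists. -/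
theorem planeField (J : E4 → M4) (hsm : ∀ a b, ContDiff ℝ ∞ fun x => J x a b)
    (hJ : ∀ x, J x * J x = -1) (hper : ∀ x k, J (x + Pi.single k 1) = J x)
    (V : Submodule ℝ (Fin 4 → ℝ)) (hV : Module.finrank ℝ V = 2)
    (hinv : ∀ x, ∀ v ∈ V, J x *ᵥ v ∈ V) :
    ∃ W : E4 → M4, IsClosedForm W ∧
      (∀ x v, v ≠ 0 → 0 < v ⬝ᵥ W x *ᵥ (J x *ᵥ v)) ∧ ∀ x, (J x)ᵀ * W x * J x = W x := by
  obtain ⟨U, hU⟩ := Submodule.exists_isCompl V
  have hU2 : Module.finrank ℝ U = 2 := by
    have := Submodule.finrank_add_eq_of_isCompl hU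
    simp [hV] at this
    omega
  set b : Module.Basis (Fin 4) ℝ (Fin 4 → ℝ) :=
    (((Module.finBasisOfFinrankEq ℝ U hU2).prod (Module.finBasisOfFinrankEq ℝ V hV)).map
      (Submodule.prodEquivOfIsCompl U V hU.symm)).reindex finSumFinEquiv with hb
  set A : M4 := Matrix.of fun i k => b k i with hA
  set B : M4 := Matrix.of fun k i => b.repr (Pi.single i 1) k with hB
  have hAB : A * B = 1 := by
    ext i l
    have h := congrFun (b.sum_repr (Pi.single l (1 : ℝ))) i
    simp only [Finset.sum_apply, Pi.smul_apply, smul_eq_mul] at h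
    simp only [hA, hB, Matrix.mul_apply, Matrix.of_apply, Matrix.one_apply]
    rw [show (∑ k, b k i * b.repr (Pi.single l 1) k) = ∑ k, b.repr (Pi.single l 1) k * b k i from
      Finset.sum_congr rfl fun k _ => mul_comm _ _, h, Pi.single_apply]
  have hBA : B * A = 1 := mul_eq_one_comm.1 hAB
  have hVk : ∀ y ∈ V, b.repr y 0 = 0 ∧ b.repr y 1 = 0 := fun y hy => by
    have e : (Submodule.prodEquivOfIsCompl U V hU.symm).symm y = (0, ⟨y, hy⟩) := by
      rw [LinearEquiv.symm_apply_eq]; simp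
    constructor
    · rw [hb, Module.Basis.repr_reindex_apply]
      change (_ : Fin 2 ⊕ Fin 2 →₀ ℝ) (Sum.inl 0) = 0
      simp [e]
    · rw [hb, Module.Basis.repr_reindex_apply]
      change (_ : Fin 2 ⊕ Fin 2 →₀ ℝ) (Sum.inl 1) = 0
      simp [e]
  have hcol : ∀ k : Fin 4, (k = 2 ∨ k = 3) → b k ∈ V := by
    intro k hk
    rcases hk with rfl | rfl <;> simp [hb, finSumFinEquiv, Fin.addCases]
  have hB' : ∀ y : Fin 4 → ℝ, B *ᵥ y = fun k => b.repr y k := fun y => by
    funext k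
    conv_rhs => rw [show y = ∑ i, y i • (Pi.single i (1 : ℝ) : Fin 4 → ℝ) by
      funext l; simp [Finset.sum_apply, Pi.single_apply]]
    simp [hB, Matrix.mulVec, dotProduct, mul_comm]
  have hz : ∀ x, ∀ c : Fin 4, (c = 2 ∨ c = 3) →
      (B * J x * A) 0 c = 0 ∧ (B * J x * A) 1 c = 0 := fun x c hc => by
    have e : ∀ a, (B * J x * A) a c = b.repr (J x *ᵥ b c) a := fun a => by
      rw [← congrFun (hB' _) a, Matrix.mulVec_mulVec]
      simp [hA, Matrix.mul_apply, Matrix.mulVec, dotProduct]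
    exact ⟨(e 0).trans (hVk _ (hinv x _ (hcol c hc))).1, (e 1).trans (hVk _ (hinv x _ (hcol c hc))).2⟩
  have hfib : ∀ x, (B * J x * A) 0 2 = 0 ∧ (B * J x * A) 0 3 = 0 ∧ (B * J x * A) 1 2 = 0
      ∧ (B * J x * A) 1 3 = 0 := fun x =>
    ⟨(hz x 2 (Or.inl rfl)).1, (hz x 3 (Or.inr rfl)).1, (hz x 2 (Or.inl rfl)).2,
      (hz x 3 (Or.inr rfl)).2⟩
  rcases lt_trichotomy 0 ((B * J 0 * A) 1 0 * (B * J 0 * A) 3 2) with hσ | hσ | hσ
  · exact framed hAB hBA J hsm hJ hper hfib hσ
  · exfalso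
    set M := B * J 0 * A with hM
    have h2 : M * M = -1 := by
      have : B * J 0 * A * (B * J 0 * A) = B * (J 0 * J 0) * A := by
        simp only [Matrix.mul_assoc]
        rw [← Matrix.mul_assoc A B, hAB, Matrix.one_mul]
      rw [hM, this, hJ, Matrix.mul_neg, Matrix.mul_one, Matrix.neg_mul, hBA]
    obtain ⟨z1, z2, z3, z4⟩ : M 0 2 = 0 ∧ M 0 3 = 0 ∧ M 1 2 = 0 ∧ M 1 3 = 0 := hfib 0
    have h00 := congrFun (congrFun h2 0) 0
    have h22 := congrFun (congrFun h2 2) 2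
    simp [Matrix.mul_apply, Fin.sum_univ_four, ← hM, z1, z2, z3, z4] at h00 h22
    rcases mul_eq_zero.1 hσ.symm with h | h
    · rw [h] at h00; nlinarith
    · rw [h] at h22; nlinarith
  · set R : M4 := Matrix.diagonal ![1, 1, 1, -1] with hR
    have RR : R * R = 1 := by
      rw [hR, Matrix.diagonal_mul_diagonal]
      ext c d; fin_cases c <;> fin_cases d <;> simp
    have e : ∀ x a c, (R * B * J x * (A * R)) a c
        = ![(1 : ℝ), 1, 1, -1] a * (B * J x * A) a c * ![(1 : ℝ), 1, 1, -1] c := fun x a c => by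
      rw [show R * B * J x * (A * R) = R * (B * J x * A) * R by simp only [Matrix.mul_assoc],
        hR, Matrix.mul_diagonal, Matrix.diagonal_mul]
    refine framed (A := A * R) (B := R * B) (by rw [Matrix.mul_assoc, ← Matrix.mul_assoc R R, RR,
      Matrix.one_mul, hAB]) (by rw [Matrix.mul_assoc, ← Matrix.mul_assoc B A, hBA, Matrix.one_mul, RR])
      J hsm hJ hper (fun x => ?_) ?_
    · simp [e, hfib x]
    · simp [e]
      linarith

end Vale.Agent.P204.Leaf
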