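import Vale.Agent.P204.Leaf.Shift

/-! Rapidly decreasing Fourier series on `ℝ⁴` (P204, leaf foliations). -/

namespace Vale.Agent.P204.Leaf

open scoped ContDiff ComplexConjugate
open Finset

/-- The size of a frequency. -/
noncomputable def w (n : Z4) : ℝ := 1 + ∑ i, |(n i : ℝ)|

lemma one_le_w (n : Z4) : 1 ≤ w n :=
  le_add_of_nonneg_right (sum_nonneg fun i _ => abs_nonneg _)

lemma w_pos (n : Z4) : 0 < w n := zero_lt_one.trans_le (one_le_w n)

lemma w_neg (n : Z4) : w (-n) = w n := by simp [w]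

lemma abs_le_w (n : Z4) (i : Fin 4) : 1 + |(n i : ℝ)| ≤ w n :=
  add_le_add le_rfl (single_le_sum (f := fun i => |(n i : ℝ)|) (fun i _ => abs_nonneg _) (mem_univ i))

lemma summable_w : Summable fun n : Z4 => (1 : ℝ) / w n ^ 8 := by
  have h1 : Summable fun m : ℤ => 1 / (1 + |(m : ℝ)|) ^ 2 := by
    refine Summable.of_norm_bounded_eventually (Real.summable_one_div_int_pow.2 one_lt_two) ?_
    filter_upwards [(Set.finite_singleton (0 : ℤ)).compl_mem_cofinite] with m hm
    have hm' : (m : ℝ) ≠ 0 := Int.cast_ne_zero.2 hm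
    rw [Real.norm_of_nonneg (by positivity), one_div, one_div, ← sq_abs (m : ℝ)]
    exact inv_anti₀ (by positivity) (pow_le_pow_left₀ (abs_nonneg _) (by linarith) 2)
  have hp : ∀ m : ℤ, 0 ≤ 1 / (1 + |(m : ℝ)|) ^ 2 := fun m => by positivity
  have h4 := h1.mul_of_nonneg (h1.mul_of_nonneg (h1.mul_of_nonneg h1 hp hp) hp
    fun p => mul_nonneg (hp _) (hp _)) hp fun p => mul_nonneg (hp _) (mul_nonneg (hp _) (hp _))
  have h5 := h4.comp_injective (i := fun n : Z4 => (n 0, n 1, n 2, n 3)) fun a b hab => by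
    simp only [Prod.mk.injEq] at hab
    funext i; fin_cases i <;> simp_all
  refine h5.of_nonneg_of_le (fun n => by have := w_pos n; positivity) fun n => ?_
  have := w_pos n
  simp only [Function.comp, one_div, ← mul_inv, ← mul_pow]
  refine inv_anti₀ (by positivity) ?_
  rw [show w n ^ 8 = (w n ^ 4) ^ 2 from by ring]
  refine pow_le_pow_left₀ (by positivity) ?_ 2
  calc (1 + |(n 0 : ℝ)|) * ((1 + |(n 1 : ℝ)|) * ((1 + |(n 2 : ℝ)|) * (1 + |(n 3 : ℝ)|)))
      ≤ w n * (w n * (w n * w n)) := by gcongr <;> exact abs_le_w n _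
    _ = w n ^ 4 := by ring

/-- The frequency as a linear form, times `2πi`. -/
noncomputable def L (n : Z4) : E4 →L[ℝ] ℂ :=
  ∑ i, (ContinuousLinearMap.proj i : E4 →L[ℝ] ℝ).smulRight ((2 * Real.pi * Complex.I) * (n i : ℂ))

lemma L_apply (n : Z4) (x : E4) :
    L n x = 2 * Real.pi * Complex.I * ∑ i, (n i : ℂ) * (x i : ℂ) := by
  simp only [L, ContinuousLinearMap.sum_apply, ContinuousLinearMap.smulRight_apply,
    ContinuousLinearMap.proj_apply, Complex.real_smul, mul_sum]
  exact sum_congr rfl fun i _ => by ring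

lemma norm_L (n : Z4) : ‖L n‖ ≤ 2 * Real.pi * w n := by
  refine (norm_sum_le _ _).trans ?_
  have e : ∀ i : Fin 4, ‖(ContinuousLinearMap.proj i : E4 →L[ℝ] ℝ).smulRight
      ((2 * Real.pi * Complex.I) * (n i : ℂ))‖ ≤ 2 * Real.pi * |(n i : ℝ)| := fun i => by
    refine ContinuousLinearMap.opNorm_le_bound _ (by positivity) fun x => ?_
    rw [ContinuousLinearMap.smulRight_apply, ContinuousLinearMap.proj_apply, norm_smul, mul_comm]
    refine mul_le_mul (le_of_eq ?_) (norm_le_pi_norm x i) (norm_nonneg _) (by positivity)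
    simp [Real.pi_pos.le]
  refine (sum_le_sum fun i _ => e i).trans ?_
  rw [← mul_sum, w]
  nlinarith [Real.pi_pos, sum_nonneg fun i (_ : i ∈ (univ : Finset (Fin 4))) => abs_nonneg (n i : ℝ)]

/-- The characters. -/
noncomputable def ex (n : Z4) (x : E4) : ℂ := Complex.exp (L n x)

lemma L_im (n : Z4) (x : E4) : (L n x).re = 0 := by
  rw [L_apply]
  simp [mul_sum, Complex.re_sum, Complex.im_sum]

lemma norm_ex (n : Z4) (x : E4) : ‖ex n x‖ = 1 := by simp [ex, Complex.norm_exp, L_im]

lemma ex_add (n : Z4) (x y : E4) : ex n (x + y) = ex n x * ex n y := by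
  rw [ex, map_add, Complex.exp_add]; rfl

lemma ex_neg (n : Z4) (x : E4) : ex (-n) x = conj (ex n x) := by
  rw [ex, ex, ← Complex.exp_conj]
  congr 1
  simp only [L_apply, Pi.neg_apply, map_mul, map_sum, Complex.conj_ofReal, Complex.conj_I,
    map_ofNat, map_intCast, Int.cast_neg, neg_mul, sum_neg_distrib]
  ring

lemma hasFDerivAt_ex (n : Z4) (x : E4) : HasFDerivAt (ex n) (ex n x • L n) x :=
  (L n).hasFDerivAt.cexp

lemma ex_period (n : Z4) (x : E4) (k : Fin 4) : ex n (x + Pi.single k 1) = ex n x := by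
  rw [ex_add]
  have : ex n (Pi.single k 1) = 1 := by
    rw [ex, L_apply, sum_eq_single k (fun b _ hb => by simp [hb]) (by simp), Pi.single_eq_same,
      Complex.ofReal_one, mul_one, mul_comm]
    exact Complex.exp_int_mul_two_pi_mul_I _
  rw [this, mul_one]

variable {E : Type*} [NormedAddCommGroup E] [NormedSpace ℂ E]

/-- Rapid decay. -/
def Rap (c : Z4 → E) : Prop := ∀ k : ℕ, Summable fun n => w n ^ k * ‖c n‖

omit [NormedSpace ℂ E] in
lemma Rap.norm {c : Z4 → E} (hc : Rap c) : Summable fun n => ‖c n‖ := by simpa using hc 0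

omit [NormedSpace ℂ E] in
lemma rap_of_bound {c : Z4 → E} (h : ∀ k : ℕ, ∃ C, ∀ n, w n ^ k * ‖c n‖ ≤ C) : Rap c := fun k => by
  obtain ⟨C, hC⟩ := h (k + 8)
  refine (summable_w.mul_left C).of_nonneg_of_le
    (fun n => mul_nonneg (pow_nonneg (w_pos n).le _) (norm_nonneg _)) fun n => ?_
  have := w_pos n
  rw [mul_one_div, le_div_iff₀ (by positivity)]
  calc w n ^ k * ‖c n‖ * w n ^ 8 = w n ^ (k + 8) * ‖c n‖ := by ring
    _ ≤ C := hC n

omit [NormedSpace ℂ E] in
lemma Rap.add {c d : Z4 → E} (hc : Rap c) (hd : Rap d) : Rap (c + d) := fun k =>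
  ((hc k).add (hd k)).of_nonneg_of_le
    (fun n => mul_nonneg (pow_nonneg (w_pos n).le _) (norm_nonneg _)) fun n => by
      rw [← mul_add]
      exact mul_le_mul_of_nonneg_left (norm_add_le _ _) (pow_nonneg (w_pos n).le _)

lemma Rap.smul {c : Z4 → E} (hc : Rap c) {m : Z4 → ℂ} {C : ℝ} {j : ℕ}
    (hm : ∀ n, ‖m n‖ ≤ C * w n ^ j) : Rap fun n => m n • c n := fun k =>
  ((hc (k + j)).mul_left C).of_nonneg_of_le
    (fun n => mul_nonneg (pow_nonneg (w_pos n).le _) (norm_nonneg _)) fun n => by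
      rw [norm_smul, pow_add]
      have h := mul_le_mul_of_nonneg_right (hm n) (norm_nonneg (c n))
      have := mul_le_mul_of_nonneg_left h (pow_nonneg (w_pos n).le k)
      linarith

omit [NormedSpace ℂ E] in
lemma Rap.comp_neg {c : Z4 → E} (hc : Rap c) : Rap fun n => c (-n) := fun k =>
  ((hc k).comp_injective neg_injective).congr fun n => by simp [w_neg]

/-- The series. -/
noncomputable def Ser (c : Z4 → E) (x : E4) : E := ∑' n, ex n x • c n

variable [CompleteSpace E]

lemma summable_ser {c : Z4 → E} (hc : Rap c) (x : E4) : Summable fun n => ex n x • c n :=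
  Summable.of_norm (by simpa [norm_smul, norm_ex] using hc.norm)

lemma Ser_add {c d : Z4 → E} (hc : Rap c) (hd : Rap d) (x : E4) :
    Ser (c + d) x = Ser c x + Ser d x := by
  simp only [Ser, Pi.add_apply, smul_add]
  exact (summable_ser hc x).tsum_add (summable_ser hd x)

lemma Ser_const_smul {c : Z4 → E} (hc : Rap c) (a : ℂ) (x : E4) :
    Ser (fun n => a • c n) x = a • Ser c x := by
  simp only [Ser, smul_comm (ex _ x) a]
  exact (summable_ser hc x).tsum_const_smul a

omit [CompleteSpace E] in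
lemma norm_Ser_le {c : Z4 → E} (hc : Rap c) (x : E4) : ‖Ser c x‖ ≤ ∑' n, ‖c n‖ := by
  have e : (fun n => ‖ex n x • c n‖) = fun n => ‖c n‖ := by simp [norm_smul, norm_ex]
  refine (norm_tsum_le_tsum_norm (e ▸ hc.norm)).trans (le_of_eq ?_)
  rw [e]

omit [CompleteSpace E] in
lemma per_Ser (c : Z4 → E) : Per (Ser c) := fun x k => by simp only [Ser, ex_period]

omit [CompleteSpace E] in
lemma rap_deriv {c : Z4 → E} (hc : Rap c) : Rap fun n => (L n).smulRight (c n) := fun k =>
  ((hc (k + 1)).mul_left (2 * Real.pi)).of_nonneg_of_le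
    (fun n => mul_nonneg (pow_nonneg (w_pos n).le _) (norm_nonneg _)) fun n => by
      have h : ‖(L n).smulRight (c n)‖ ≤ ‖L n‖ * ‖c n‖ :=
        ContinuousLinearMap.opNorm_le_bound _ (by positivity) fun y => by
          rw [ContinuousLinearMap.smulRight_apply, norm_smul, mul_right_comm]
          exact mul_le_mul_of_nonneg_right ((L n).le_opNorm y) (norm_nonneg _)
      have h2 := h.trans (mul_le_mul_of_nonneg_right (norm_L n) (norm_nonneg _))
      have := mul_le_mul_of_nonneg_left h2 (pow_nonneg (w_pos n).le k)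
      rw [pow_succ]
      linarith

lemma hasFDerivAt_Ser {c : Z4 → E} (hc : Rap c) (x : E4) :
    HasFDerivAt (Ser c) (Ser (fun n => (L n).smulRight (c n)) x) x := by
  have e : ∀ n y, (ex n y • L n).smulRight (c n) = ex n y • (L n).smulRight (c n) := fun n y => by
    ext z; simp [mul_smul]
  refine hasFDerivAt_tsum (f := fun n y => ex n y • c n)
    (f' := fun n y => ex n y • (L n).smulRight (c n)) (x₀ := 0)
    (u := fun n => ‖(L n).smulRight (c n)‖) (rap_deriv hc).norm (fun n y => ?_) (fun n y => ?_) ?_ x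
  · rw [← e]
    exact (hasFDerivAt_ex n y).smul_const (c n)
  · rw [norm_smul, norm_ex, one_mul]
  · exact summable_ser hc 0

lemma contDiff_Ser {c : Z4 → E} (hc : Rap c) : ContDiff ℝ ∞ (Ser c) := by
  refine contDiff_infty.2 fun k => ?_
  induction k generalizing E with
  | zero =>
    exact contDiff_zero.2 (continuous_iff_continuousAt.2 fun x => (hasFDerivAt_Ser hc x).continuousAt)
  | succ k ih =>
    rw [Nat.cast_succ, contDiff_succ_iff_fderiv]
    refine ⟨fun x => (hasFDerivAt_Ser hc x).differentiableAt, fun h => absurd h (by simp), ?_⟩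
    rw [show fderiv ℝ (Ser c) = Ser (fun n => (L n).smulRight (c n)) from
      funext fun x => (hasFDerivAt_Ser hc x).fderiv]
    exact @ih (E4 →L[ℝ] E) _ _ _ (fun n => (L n).smulRight (c n)) (rap_deriv (E := E) hc)

lemma fderiv_Ser {c : Z4 → E} (hc : Rap c) (x v : E4) :
    fderiv ℝ (Ser c) x v = Ser (fun n => L n v • c n) x := by
  rw [(hasFDerivAt_Ser hc x).fderiv, Ser,
    ← ContinuousLinearMap.apply_apply (𝕜 := ℝ) (v := v),
    (ContinuousLinearMap.apply ℝ E v).map_tsum (summable_ser (rap_deriv hc) x)]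
  exact tsum_congr fun n => by simp

end Vale.Agent.P204.Leaf
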