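import Mathlib

/-! Smooth periodic functions on `ℝ⁴` as continuous functions on the torus, and the smooth path
of their translates (P204, leaf foliations). -/

namespace Vale.Agent.P204.Leaf

open scoped ContDiff Topology
open Function Set

abbrev E4 := Fin 4 → ℝ
abbrev Z4 := Fin 4 → ℤ
abbrev T4 := UnitAddTorus (Fin 4)

/-- Periodicity for the lattice `ℤ⁴`. -/
def Per {α : Type*} (f : E4 → α) : Prop := ∀ x k, f (x + Pi.single k 1) = f x

/-- The projection to the torus. -/
def proj (x : E4) : T4 := fun i => (x i : UnitAddCircle)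

lemma continuous_proj : Continuous proj :=
  continuous_pi fun i => (AddCircle.continuous_mk' 1).comp (continuous_apply i)

lemma isQuotientMap_proj : Topology.IsQuotientMap proj := by
  refine IsOpenQuotientMap.isQuotientMap ?_
  exact IsOpenQuotientMap.piMap fun _ => QuotientAddGroup.isOpenQuotientMap_mk

/-- A lift of a point of the torus. -/
noncomputable def lift (z : T4) : E4 := fun i => (AddCircle.equivIco 1 0 (z i)).1

lemma proj_lift (z : T4) : proj (lift z) = z :=
  funext fun i => (AddCircle.equivIco 1 0).symm_apply_apply (z i)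

lemma Per.add_int {α : Type*} {f : E4 → α} (hf : Per f) (x : E4) (m : Z4) :
    f (x + fun i => (m i : ℝ)) = f x := by
  have h : ∀ s : Finset (Fin 4),
      Periodic f (∑ k ∈ s, m k • (Pi.single k (1 : ℝ) : E4)) := fun s => by
    classical
    induction s using Finset.induction_on with
    | empty => intro x; simp
    | insert a s ha ih =>
      rw [Finset.sum_insert ha]
      have ha' : Periodic f (Pi.single a (1 : ℝ) : E4) := fun x => hf x a
      exact (ha'.zsmul (m a)).add_period ih
  have e : (fun i => (m i : ℝ)) = ∑ k, m k • (Pi.single k (1 : ℝ) : E4) := by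
    funext i
    simp [Finset.sum_apply, Pi.single_apply]
  rw [e]
  exact h _ x

lemma Per.congr_proj {α : Type*} {f : E4 → α} (hf : Per f) {x y : E4} (h : proj x = proj y) :
    f x = f y := by
  have h' : ∀ i, ∃ m : ℤ, x i = y i + m := fun i => by
    obtain ⟨m, hm⟩ := AddSubgroup.mem_zmultiples_iff.1
      (QuotientAddGroup.eq.1 (congrFun h i).symm)
    exact ⟨m, by rw [zsmul_one] at hm; linarith⟩
  choose m hm using h'
  rw [show x = y + fun i => (m i : ℝ) from funext hm, hf.add_int]

/-- The function on the torus of a periodic function. -/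
noncomputable def desc {α : Type*} (f : E4 → α) : T4 → α := f ∘ lift

lemma desc_proj {α : Type*} {f : E4 → α} (hf : Per f) (x : E4) : desc f (proj x) = f x :=
  hf.congr_proj (proj_lift _)

lemma continuous_desc {α : Type*} [TopologicalSpace α] {f : E4 → α} (hf : Per f)
    (hc : Continuous f) : Continuous (desc f) :=
  isQuotientMap_proj.continuous_iff.2 (by
    rw [show desc f ∘ proj = f from funext (desc_proj hf)]; exact hc)

variable {E : Type*} [NormedAddCommGroup E]

omit [NormedAddCommGroup E] in
lemma per_shift {f : E4 → E} (hf : Per f) (τ : E4) : Per fun x => f (x + τ) := fun x k => by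
  show f (x + Pi.single k 1 + τ) = f (x + τ)
  rw [add_right_comm]; exact hf _ k

/-- The translates of a periodic continuous function, as functions on the torus. -/
noncomputable def path (f : E4 → E) (hf : Per f) (hc : Continuous f) (τ : E4) : C(T4, E) :=
  ⟨desc fun x => f (x + τ), continuous_desc (per_shift hf τ) (hc.comp (continuous_add_const τ))⟩

lemma path_proj (f : E4 → E) (hf : Per f) (hc : Continuous f) (τ x : E4) :
    path f hf hc τ (proj x) = f (x + τ) := desc_proj (per_shift hf τ) x

lemma uniform_cont {f : E4 → E} (hf : Per f) (hc : Continuous f) {ε : ℝ} (hε : 0 < ε) :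
    ∃ δ > 0, ∀ x y : E4, dist x y < δ → dist (f x) (f y) < ε := by
  obtain ⟨δ, hδ, h⟩ := Metric.uniformContinuousOn_iff.1
    ((isCompact_closedBall (0 : E4) 3).uniformContinuousOn_of_continuous hc.continuousOn) ε hε
  refine ⟨min δ 1, lt_min hδ one_pos, fun x y hxy => ?_⟩
  set m : Z4 := fun i => -⌊x i⌋ with hm
  rw [← hf.add_int x m, ← hf.add_int y m]
  have hx : ‖x + fun i => (m i : ℝ)‖ ≤ 2 := (pi_norm_le_iff_of_nonneg (by norm_num)).2 fun i => by
    rw [Pi.add_apply, Real.norm_eq_abs, abs_le, hm]
    push_cast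
    constructor <;> linarith [Int.floor_le (x i), Int.lt_floor_add_one (x i)]
  have hd : dist (x + fun i => (m i : ℝ)) (y + fun i => (m i : ℝ)) = dist x y :=
    dist_add_right x y _
  have h1 : dist x y < 1 := hxy.trans_le (min_le_right _ _)
  refine h _ ?_ _ ?_ (by rw [hd]; exact hxy.trans_le (min_le_left _ _))
  · simp only [Metric.mem_closedBall, dist_zero_right]; linarith
  · simp only [Metric.mem_closedBall, dist_zero_right]
    calc ‖y + fun i => (m i : ℝ)‖ ≤ ‖x + fun i => (m i : ℝ)‖ + dist (x + fun i => (m i : ℝ))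
          (y + fun i => (m i : ℝ)) := by rw [dist_comm, dist_eq_norm]; exact norm_le_norm_add_norm_sub' _ _
      _ ≤ 3 := by rw [hd]; linarith

lemma continuous_path (f : E4 → E) (hf : Per f) (hc : Continuous f) :
    Continuous (path f hf hc) := by
  refine Metric.continuous_iff.2 fun τ ε hε => ?_
  obtain ⟨δ, hδ, h⟩ := uniform_cont hf hc (half_pos hε)
  refine ⟨δ, hδ, fun σ hσ => lt_of_le_of_lt
    ((ContinuousMap.dist_le (half_pos hε).le).2 fun z => ?_) (half_lt_self hε)⟩
  exact (h _ _ (by rw [dist_add_left]; exact hσ)).le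

variable [NormedSpace ℝ E]

lemma per_fderiv {f : E4 → E} (hf : Per f) : Per (fderiv ℝ f) := fun x k => by
  rw [← fderiv_comp_add_right]
  congr 1
  exact funext fun y => hf y k

/-- A field of linear maps on the torus as a linear map into fields. -/
noncomputable def swapL : C(T4, E4 →L[ℝ] E) →L[ℝ] E4 →L[ℝ] C(T4, E) :=
  LinearMap.mkContinuous₂
    (LinearMap.mk₂ ℝ (fun (g : C(T4, E4 →L[ℝ] E)) h =>
        (⟨fun z => g z h, (map_continuous g).clm_apply continuous_const⟩ : C(T4, E)))
      (fun _ _ _ => by ext; simp) (fun _ _ _ => by ext; simp)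
      (fun _ _ _ => by ext; simp) (fun _ _ _ => by ext; simp)) 1
    fun g h => by
      rw [one_mul]
      refine (ContinuousMap.norm_le _ (by positivity)).2 fun z => ?_
      exact ((g z).le_opNorm h).trans
        (mul_le_mul_of_nonneg_right (g.norm_coe_le_norm z) (norm_nonneg _))

lemma swapL_apply (g : C(T4, E4 →L[ℝ] E)) (h : E4) (z : T4) : swapL g h z = g z h := rfl

lemma hasFDerivAt_path (f : E4 → E) (hf : Per f) (hs : ContDiff ℝ 1 f) (τ : E4) :
    HasFDerivAt (path f hf hs.continuous)
      (swapL (path (fderiv ℝ f) (per_fderiv hf) (hs.continuous_fderiv one_ne_zero) τ)) τ := by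
  rw [hasFDerivAt_iff_isLittleO_nhds_zero, Asymptotics.isLittleO_iff]
  intro ε hε
  obtain ⟨δ, hδ, hu⟩ := uniform_cont (per_fderiv hf) (hs.continuous_fderiv one_ne_zero) hε
  filter_upwards [Metric.ball_mem_nhds (0 : E4) hδ] with h hh
  rw [Metric.mem_ball, dist_zero_right] at hh
  refine (ContinuousMap.norm_le _ (by positivity)).2 fun z => ?_
  simp only [ContinuousMap.sub_apply, swapL_apply]
  have key : ‖f (lift z + (τ + h)) - f (lift z + τ) - fderiv ℝ f (lift z + τ) h‖ ≤ ε * ‖h‖ := by
    have := (convex_closedBall (lift z + τ) ‖h‖).norm_image_sub_le_of_norm_fderiv_le'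
      (f := f) (φ := fderiv ℝ f (lift z + τ)) (C := ε) (x := lift z + τ) (y := lift z + (τ + h))
      (fun y _ => (hs.differentiable one_ne_zero) y)
      (fun y hy => by
        rw [← dist_eq_norm]
        exact (hu _ _ ((Metric.mem_closedBall.1 hy).trans_lt hh)).le)
      (Metric.mem_closedBall_self (norm_nonneg _))
      (by rw [Metric.mem_closedBall, dist_add_left, dist_eq_norm, add_sub_cancel_left])
    simpa [add_sub_add_left_eq_sub] using this
  exact key

lemma contDiff_path (f : E4 → E) (hf : Per f) (hs : ContDiff ℝ ∞ f) :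
    ContDiff ℝ ∞ (path f hf hs.continuous) := by
  refine contDiff_infty.2 fun n => ?_
  induction n generalizing E with
  | zero => exact contDiff_zero.2 (continuous_path f hf hs.continuous)
  | succ n ih =>
    have hd : ContDiff ℝ ∞ (fderiv ℝ f) := hs.fderiv_right (by simp)
    have h1 : ContDiff ℝ 1 f := hs.of_le (by simp)
    rw [Nat.cast_succ, contDiff_succ_iff_fderiv]
    refine ⟨fun τ => (hasFDerivAt_path f hf h1 τ).differentiableAt, fun h => absurd h (by simp), ?_⟩
    rw [show fderiv ℝ (path f hf hs.continuous) = fun τ =>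
      swapL (path (fderiv ℝ f) (per_fderiv hf) hd.continuous τ) from
      funext fun τ => (hasFDerivAt_path f hf h1 τ).fderiv]
    have hl : ContDiff ℝ (n : ℕ∞ω) (fun g : C(T4, E4 →L[ℝ] E) => swapL g) :=
      ContinuousLinearMap.contDiff (𝕜 := ℝ) (E := C(T4, E4 →L[ℝ] E)) (F := E4 →L[ℝ] C(T4, E)) swapL
    exact hl.comp (ih (fderiv ℝ f) (per_fderiv hf) hd)

end Vale.Agent.P204.Leaf
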