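import Vale.Agent.P204.Leaf.L2

/-! The Beltrami system of a linear foliation by complex leaves on the four-torus (P204).

One real linear contraction on `L²(T⁴)`: the multiplier is a Beurling multiplier in the base
frequencies where the leaf frequencies are tiny, and in the leaf frequencies elsewhere. -/

namespace Vale.Agent.P204.Leaf

open scoped ENNReal ContDiff ComplexConjugate
open MeasureTheory Filter Finset Complex

noncomputable local instance : MeasureSpace UnitAddCircle := ⟨AddCircle.haarAddCircle⟩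
local instance : Measure.IsAddHaarMeasure (volume : Measure UnitAddCircle) :=
  inferInstanceAs (Measure.IsAddHaarMeasure AddCircle.haarAddCircle)
local instance : IsProbabilityMeasure (volume : Measure UnitAddCircle) :=
  inferInstanceAs (IsProbabilityMeasure AddCircle.haarAddCircle)

/-- The frequencies in a frame, given by the columns of a matrix. -/
noncomputable def xi (A : Matrix (Fin 4) (Fin 4) ℝ) (n : Z4) (k : Fin 4) : ℝ :=
  ∑ i, (n i : ℝ) * A i k

/-- The frame vectors. -/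
def frame (A : Matrix (Fin 4) (Fin 4) ℝ) (k : Fin 4) : E4 := fun i => A i k

lemma xi_neg (A : Matrix (Fin 4) (Fin 4) ℝ) (n : Z4) (k : Fin 4) : xi A (-n) k = -xi A n k := by
  simp [xi]

lemma L_frame (A : Matrix (Fin 4) (Fin 4) ℝ) (n : Z4) (k : Fin 4) :
    L n (frame A k) = 2 * Real.pi * I * (xi A n k : ℂ) := by
  simp [L_apply, xi, frame]

variable (A : Matrix (Fin 4) (Fin 4) ℝ) (δ : ℝ)

noncomputable def zc (n : Z4) : ℂ := ⟨xi A n 0, xi A n 1⟩

noncomputable def uc (n : Z4) : ℂ := ⟨-xi A n 3, xi A n 2⟩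

noncomputable def leaf (n : Z4) : ℝ := |xi A n 2| + |xi A n 3|

/-- Frequencies with tiny leaf part. -/
def Small (n : Z4) : Prop := n ≠ 0 ∧ leaf A n * w n ^ 9 < δ

lemma zc_neg (n : Z4) : zc A (-n) = -zc A n := by
  apply Complex.ext <;> simp [zc, xi_neg]

lemma uc_neg (n : Z4) : uc A (-n) = -uc A n := by
  apply Complex.ext <;> simp [uc, xi_neg]

lemma small_neg (n : Z4) : Small A δ (-n) ↔ Small A δ n := by
  simp [Small, leaf, xi_neg, w_neg]

open Classical in
noncomputable def aS (n : Z4) : ℂ := if Small A δ n then conj (zc A n) / zc A n else 0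

open Classical in
noncomputable def bS (n : Z4) : ℂ :=
  if Small A δ n ∨ n = 0 then 0 else uc A n / conj (uc A n)

open Classical in
noncomputable def aT (n : Z4) : ℂ :=
  if Small A δ n then ⟨xi A n 2, -xi A n 3⟩ / zc A n else 0

open Classical in
noncomputable def bT (n : Z4) : ℂ :=
  if Small A δ n then ⟨xi A n 2, xi A n 3⟩ / conj (zc A n) else 0

open Classical in
noncomputable def aF (n : Z4) : ℂ :=
  if Small A δ n ∨ n = 0 then 0 else -(I * conj (zc A n)) / uc A n

open Classical in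
noncomputable def bF (n : Z4) : ℂ :=
  if Small A δ n ∨ n = 0 then 0 else I * zc A n / conj (uc A n)

/-- The quantities attached to a frame and a threshold. -/
structure Data (c₀ C₁ : ℝ) : Prop where
  c₀_pos : 0 < c₀
  C₁_nonneg : 0 ≤ C₁
  low : ∀ n : Z4, n ≠ 0 → c₀ ≤ |xi A n 0| + |xi A n 1| + leaf A n
  high : ∀ n : Z4, ∀ k, |xi A n k| ≤ C₁ * w n
  δ_pos : 0 < δ
  δ_le : δ ≤ c₀ / 2

variable {A δ} {c₀ C₁ : ℝ}

lemma Data.zc_ge (d : Data A δ c₀ C₁) {n : Z4} (hn : Small A δ n) : c₀ / 4 ≤ ‖zc A n‖ := by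
  have h1 := d.low n hn.1
  have h2 : leaf A n ≤ δ := by
    have := mul_le_mul_of_nonneg_left (one_le_pow₀ (one_le_w n) : (1 : ℝ) ≤ w n ^ 9)
      (show 0 ≤ leaf A n by unfold leaf; positivity)
    linarith [hn.2]
  have h3 : |xi A n 0| ≤ ‖zc A n‖ := abs_re_le_norm (zc A n)
  have h4 : |xi A n 1| ≤ ‖zc A n‖ := abs_im_le_norm (zc A n)
  linarith [d.δ_le]

lemma Data.uc_ge (d : Data A δ c₀ C₁) {n : Z4} (hn : ¬(Small A δ n ∨ n = 0)) :
    δ / (2 * w n ^ 9) ≤ ‖uc A n‖ := by
  push_neg at hn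
  have h : δ ≤ leaf A n * w n ^ 9 := not_lt.1 fun h => hn.1 ⟨hn.2, h⟩
  have h3 : |xi A n 3| ≤ ‖uc A n‖ := by simpa [uc] using abs_re_le_norm (uc A n)
  have h4 : |xi A n 2| ≤ ‖uc A n‖ := by simpa [uc] using abs_im_le_norm (uc A n)
  have := w_pos n
  rw [div_le_iff₀ (by positivity)]
  have h5 : leaf A n ≤ 2 * ‖uc A n‖ := by unfold leaf; linarith
  have := mul_le_mul_of_nonneg_right h5 (pow_nonneg (w_pos n).le 9)
  linarith

lemma Data.zc_ne (d : Data A δ c₀ C₁) {n : Z4} (hn : Small A δ n) : zc A n ≠ 0 := fun h => by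
  have := d.zc_ge hn
  rw [h, norm_zero] at this
  linarith [d.c₀_pos]

lemma Data.uc_ne (d : Data A δ c₀ C₁) {n : Z4} (hn : ¬(Small A δ n ∨ n = 0)) : uc A n ≠ 0 :=
  fun h => by
    have h' := d.uc_ge hn
    rw [h, norm_zero] at h'
    have := w_pos n
    have : 0 < δ / (2 * w n ^ 9) := div_pos d.δ_pos (by positivity)
    linarith

lemma mulS : Mul 1 (aS A δ) (bS A δ) where
  nonneg := zero_le_one
  le n := by
    unfold aS bS
    by_cases hs : Small A δ n
    · simpa [hs] using div_self_le_one ‖zc A n‖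
    · by_cases h0 : n = 0
      · subst h0; simp [hs]
      · simpa [hs, h0] using div_self_le_one ‖uc A n‖
  even n := by
    unfold bS
    by_cases hn : Small A δ n ∨ n = 0
    · rw [if_pos hn, if_pos (by simpa [small_neg] using hn)]
    · rw [if_neg hn, if_neg (by simpa [small_neg] using hn), uc_neg]; simp

lemma Data.T_le (d : Data A δ c₀ C₁) (n : Z4) :
    ‖aT A δ n‖ + ‖bT A δ n‖ ≤ 8 * δ / c₀ / w n ^ 9 := by
  have hw := w_pos n
  have hc := d.c₀_pos
  have hδ := d.δ_pos
  unfold aT bT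
  by_cases hs : Small A δ n
  · simp only [if_pos hs, norm_div, RCLike.norm_conj]
    have h1 : ‖(⟨xi A n 2, -xi A n 3⟩ : ℂ)‖ ≤ leaf A n := by
      simpa [leaf] using norm_le_abs_re_add_abs_im (⟨xi A n 2, -xi A n 3⟩ : ℂ)
    have h2 : ‖(⟨xi A n 2, xi A n 3⟩ : ℂ)‖ ≤ leaf A n := by
      simpa [leaf] using norm_le_abs_re_add_abs_im (⟨xi A n 2, xi A n 3⟩ : ℂ)
    have h3 : leaf A n ≤ δ / w n ^ 9 := (le_div_iff₀ (by positivity)).2 hs.2.le
    have h4 := d.zc_ge hs
    calc ‖(⟨xi A n 2, -xi A n 3⟩ : ℂ)‖ / ‖zc A n‖ + ‖(⟨xi A n 2, xi A n 3⟩ : ℂ)‖ / ‖zc A n‖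
        ≤ δ / w n ^ 9 / (c₀ / 4) + δ / w n ^ 9 / (c₀ / 4) :=
          add_le_add (div_le_div₀ (by positivity) (h1.trans h3) (by positivity) h4)
            (div_le_div₀ (by positivity) (h2.trans h3) (by positivity) h4)
      _ = 8 * δ / c₀ / w n ^ 9 := by field_simp; ring
  · simp only [if_neg hs, norm_zero, add_zero]; positivity

lemma Data.mulT (d : Data A δ c₀ C₁) : Mul (8 * δ / c₀) (aT A δ) (bT A δ) where
  nonneg := by have := d.δ_pos; have := d.c₀_pos; positivity
  le n := (d.T_le n).trans (div_le_self (by have := d.δ_pos; have := d.c₀_pos; positivity)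
    (one_le_pow₀ (one_le_w n)))
  even n := by
    unfold bT
    by_cases hn : Small A δ n
    · rw [if_pos hn, if_pos ((small_neg A δ n).2 hn), zc_neg, xi_neg, xi_neg, map_neg,
        show (⟨-xi A n 2, -xi A n 3⟩ : ℂ) = -⟨xi A n 2, xi A n 3⟩ from
          Complex.ext (by simp) (by simp)]
      simp
    · rw [if_neg hn, if_neg (mt (small_neg A δ n).1 hn)]

lemma Data.F_le (d : Data A δ c₀ C₁) (n : Z4) :
    ‖aF A δ n‖ + ‖bF A δ n‖ ≤ 8 * C₁ / δ * w n ^ 10 := by
  have hw := w_pos n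
  have hδ := d.δ_pos
  have hC := d.C₁_nonneg
  unfold aF bF
  by_cases hn : Small A δ n ∨ n = 0
  · simp only [if_pos hn, norm_zero, add_zero]; positivity
  · simp only [if_neg hn, norm_div, norm_neg, norm_mul, Complex.norm_I, one_mul, RCLike.norm_conj]
    have h1 : ‖zc A n‖ ≤ 2 * C₁ * w n := by
      have h := norm_le_abs_re_add_abs_im (zc A n)
      simp only [zc] at h ⊢
      linarith [d.high n 0, d.high n 1]
    calc ‖zc A n‖ / ‖uc A n‖ + ‖zc A n‖ / ‖uc A n‖
        ≤ 2 * C₁ * w n / (δ / (2 * w n ^ 9)) + 2 * C₁ * w n / (δ / (2 * w n ^ 9)) :=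
          add_le_add (div_le_div₀ (by positivity) h1 (by positivity) (d.uc_ge hn))
            (div_le_div₀ (by positivity) h1 (by positivity) (d.uc_ge hn))
      _ = 8 * C₁ / δ * w n ^ 10 := by field_simp; ring

/-- Rapid decay survives multipliers of polynomial growth. -/
lemma Rap.act {c : Z4 → ℂ} (hc : Rap c) {a b : Z4 → ℂ} {C : ℝ} {j : ℕ}
    (h : ∀ n, ‖a n‖ + ‖b n‖ ≤ C * w n ^ j) : Rap (Leaf.act a b c) := by
  have hconj : Rap fun n => conj (c (-n)) := fun k =>
    (hc.comp_neg k).congr fun n => by simp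
  exact (hc.smul fun n => (le_add_of_nonneg_right (norm_nonneg _)).trans (h n)).add
    (hconj.smul fun n => (le_add_of_nonneg_left (norm_nonneg _)).trans (h n))

lemma Ser_cc {c : Z4 → ℂ} (x : E4) : Ser (fun n => conj (c (-n))) x = conj (Ser c x) := by
  simp only [Ser, smul_eq_mul, Complex.conj_tsum, map_mul]
  rw [← (Equiv.neg Z4).tsum_eq fun n => conj (ex n x) * conj (c n)]
  exact tsum_congr fun n => by simp [ex_neg]

lemma Ser_real {c : Z4 → ℂ} (h : ∀ n, conj (c (-n)) = c n) (x : E4) :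
    ((Ser c x).re : ℂ) = Ser c x :=
  Complex.conj_eq_iff_re.1 (by rw [← Ser_cc, show (fun n => conj (c (-n))) = c from funext h])

lemma act_real {a b : Z4 → ℂ} (h : ∀ n, conj (a (-n)) = b n) (v : Z4 → ℂ) (n : Z4) :
    conj (act a b v (-n)) = act a b v n := by
  have h' : conj (b (-n)) = a n := by
    rw [← h (-n), neg_neg, Complex.conj_conj]
  simp only [act, map_add, map_mul, neg_neg, Complex.conj_conj, h, h']
  ring

lemma real_T (n : Z4) : conj (aT A δ (-n)) = bT A δ n := by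
  unfold aT bT
  by_cases hn : Small A δ n
  · rw [if_pos hn, if_pos ((small_neg A δ n).2 hn), zc_neg, xi_neg, xi_neg,
      show (⟨-xi A n 2, - -xi A n 3⟩ : ℂ) = -⟨xi A n 2, -xi A n 3⟩ from
        Complex.ext (by simp) (by simp), neg_div_neg_eq, map_div₀]
    congr 1
    exact Complex.ext (by simp) (by simp)
  · rw [if_neg hn, if_neg (mt (small_neg A δ n).1 hn), map_zero]

lemma real_F (n : Z4) : conj (aF A δ (-n)) = bF A δ n := by
  unfold aF bF
  by_cases hn : Small A δ n ∨ n = 0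
  · rw [if_pos hn, if_pos (by simpa [small_neg] using hn), map_zero]
  · rw [if_neg hn, if_neg (by simpa [small_neg] using hn), zc_neg, uc_neg]
    simp [neg_div, div_neg]

/-- The multiplication and the conjugate multiplication. -/
noncomputable def mulR : ℂ →L[ℝ] ℂ →L[ℝ] ℂ := ContinuousLinearMap.mul ℝ ℂ

noncomputable def mulC : ℂ →L[ℝ] ℂ →L[ℝ] ℂ :=
  (ContinuousLinearMap.mul ℝ ℂ).bilinearComp (ContinuousLinearMap.id ℝ ℂ)
    (Complex.conjCLE : ℂ →L[ℝ] ℂ)

/-- The operator of the fixed point problem. -/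
noncomputable def opA (d : Data A δ c₀ C₁) (m v h : C(T4, ℂ)) : H →L[ℝ] H :=
  (bil mulR m).comp (mop (mulS (A := A) (δ := δ))) + (bil mulC v).comp (mop (mulS (A := A) (δ := δ)))
    + (bil mulR h).comp (mop d.mulT)

lemma norm_opA_le (d : Data A δ c₀ C₁) {m v h : C(T4, ℂ)} {θ Hs : ℝ} (hθ : 0 ≤ θ) (hHs : 0 ≤ Hs)
    (hmv : ∀ z, ‖m z‖ + ‖v z‖ ≤ θ) (hh : ∀ z, ‖h z‖ ≤ Hs) (u : H) :
    ‖opA d m v h u‖ ≤ (θ + Hs * (8 * δ / c₀)) * ‖u‖ := by
  set s := mop (mulS (A := A) (δ := δ)) u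
  have h1 : ‖bil mulR m s + bil mulC v s‖ ≤ θ * ‖s‖ := by
    refine Lp.norm_le_mul_norm_of_ae_le_mul ?_
    filter_upwards [Lp.coeFn_add (bil mulR m s) (bil mulC v s), coeFn_bil mulR m s,
      coeFn_bil mulC v s] with z e1 e2 e3
    rw [e1, Pi.add_apply, e2, e3]
    refine (norm_add_le _ _).trans ?_
    simp only [mulR, mulC, ContinuousLinearMap.mul_apply', ContinuousLinearMap.bilinearComp_apply,
      ContinuousLinearMap.id_apply, ContinuousLinearEquiv.coe_coe, Complex.conjCLE_apply, norm_mul,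
      RCLike.norm_conj, ← add_mul]
    exact mul_le_mul_of_nonneg_right (hmv z) (norm_nonneg _)
  have h2 : ‖bil mulR h (mop d.mulT u)‖ ≤ Hs * ‖mop d.mulT u‖ := by
    refine Lp.norm_le_mul_norm_of_ae_le_mul ?_
    filter_upwards [coeFn_bil mulR h (mop d.mulT u)] with z e2
    rw [e2]
    simp only [mulR, ContinuousLinearMap.mul_apply', norm_mul]
    exact mul_le_mul_of_nonneg_right (hh z) (norm_nonneg _)
  have h3 := norm_mop_le (mulS (A := A) (δ := δ)) u
  have h4 := norm_mop_le d.mulT u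
  calc ‖opA d m v h u‖ ≤ θ * ‖s‖ + Hs * ‖mop d.mulT u‖ := (norm_add_le _ _).trans (add_le_add h1 h2)
    _ ≤ θ * (1 * ‖u‖) + Hs * (8 * δ / c₀ * ‖u‖) := by gcongr
    _ = _ := by ring

/-- Smooth translates give rapid coefficients. -/
lemma rap_of_smooth (q : E4 → H) (hq : ContDiff ℝ ∞ q) (c : Z4 → ℂ)
    (hc : ∀ τ n, coef n (q τ) = ex n τ * c n) : Rap c := by
  refine rap_of_bound fun k => ?_
  set G : Fin 4 → ℕ → ℝ → H := fun j i => iteratedDeriv i fun s => q (s • Pi.single j 1)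
  have hG : ∀ j i n s, coef n (G j i s)
      = L n (Pi.single j 1) ^ i * (ex n (s • Pi.single j 1) * c n) := by
    intro j i n
    have hs : ContDiff ℝ ∞ fun s : ℝ => q (s • Pi.single j 1) :=
      hq.comp (contDiff_id.smul contDiff_const)
    induction i with
    | zero => intro s; simp [G, hc]
    | succ i ih =>
      intro s
      have d1 : HasDerivAt (G j i) (G j (i + 1) s) s := by
        have := ((hs.differentiable_iteratedDeriv i (by exact_mod_cast ENat.coe_lt_top i)) s).hasDerivAt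
        simpa [G, iteratedDeriv_succ] using this
      have d2 : HasDerivAt (fun t => coef n (G j i t)) (coef n (G j (i + 1) s)) s :=
        ((coef n).restrictScalars ℝ).hasFDerivAt.comp_hasDerivAt s d1
      have d3 : HasDerivAt (fun t : ℝ => L n (Pi.single j 1) ^ i * (ex n (t • Pi.single j 1) * c n))
          (L n (Pi.single j 1) ^ i * (ex n (s • Pi.single j 1) * L n (Pi.single j 1) * c n)) s := by
        refine (HasDerivAt.mul_const ?_ (c n)).const_mul _
        have := (hasFDerivAt_ex n (s • Pi.single j 1)).comp_hasDerivAt s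
          ((hasDerivAt_id s).smul_const (Pi.single j 1 : E4))
        simpa [Function.comp_def] using this
      rw [show (fun t => coef n (G j i t)) = _ from funext ih] at d2
      rw [d2.unique d3, pow_succ]
      ring
  refine ⟨5 ^ k * (‖q 0‖ + ∑ j, ‖G j k 0‖), fun n => ?_⟩
  have h0 : ‖c n‖ ≤ ‖q 0‖ := by simpa [hc, ex] using norm_coef_le n (q 0)
  have hj : ∀ j, |(n j : ℝ)| ^ k * ‖c n‖ ≤ ‖G j k 0‖ := fun j => by
    have h := norm_coef_le n (G j k 0)
    rw [hG] at h
    simp only [zero_smul, norm_mul, norm_pow, norm_ex, one_mul] at h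
    refine (mul_le_mul_of_nonneg_right (pow_le_pow_left₀ (abs_nonneg _) ?_ k) (norm_nonneg _)).trans h
    rw [L_apply, Finset.sum_eq_single j (fun b _ hb => by simp [hb]) (by simp)]
    simp [abs_of_pos Real.pi_pos]
    nlinarith [Real.pi_gt_three, abs_nonneg (n j : ℝ)]
  obtain ⟨j, -, hmax⟩ := Finset.univ.exists_max_image (fun i => |(n i : ℝ)|) univ_nonempty
  have hS : 0 ≤ ∑ j, ‖G j k 0‖ := sum_nonneg fun i _ => norm_nonneg _
  have hsum : w n ≤ 5 * max 1 |(n j : ℝ)| := by
    have := sum_le_card_nsmul univ (fun i => |(n i : ℝ)|) _ fun i hi => hmax i hi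
    simp at this
    unfold w
    linarith [le_max_left 1 |(n j : ℝ)|, le_max_right 1 |(n j : ℝ)|]
  refine (mul_le_mul_of_nonneg_right (pow_le_pow_left₀ (w_pos n).le hsum k) (norm_nonneg _)).trans ?_
  rw [mul_pow, mul_assoc]
  refine mul_le_mul_of_nonneg_left ?_ (by positivity)
  rcases le_total |(n j : ℝ)| 1 with h | h
  · rw [max_eq_left h, one_pow, one_mul]; linarith
  · rw [max_eq_right h]
    linarith [hj j, norm_nonneg (q 0),
      single_le_sum (f := fun i => ‖G i k 0‖) (fun i _ => norm_nonneg _) (mem_univ j)]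

/-- The equation: the fixed point has rapid coefficients and solves the system pointwise. -/
theorem exists_coeff (d : Data A δ c₀ C₁) {μ ν g : E4 → ℂ} (sμ : ContDiff ℝ ∞ μ)
    (sν : ContDiff ℝ ∞ ν) (sg : ContDiff ℝ ∞ g) (pμ : Per μ) (pν : Per ν) (pg : Per g)
    {θ Hs : ℝ} (hθ : 0 ≤ θ) (hHs : 0 ≤ Hs) (hmv : ∀ x, ‖μ x‖ + ‖ν x‖ ≤ θ) (hg : ∀ x, ‖g x‖ ≤ Hs)
    (hlt : θ + Hs * (8 * δ / c₀) < 1) :
    ∃ c : Z4 → ℂ, Rap c ∧
      (∀ n, ‖c n‖ ≤ Hs / (1 - (θ + Hs * (8 * δ / c₀)))) ∧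
      ∀ x, Ser c x = μ x * Ser (act (aS A δ) (bS A δ) c) x
        + ν x * conj (Ser (act (aS A δ) (bS A δ) c) x)
        + g x * (1 + Ser (act (aT A δ) (bT A δ) c) x) := by
  set ρ := θ + Hs * (8 * δ / c₀) with hρ
  set m := path μ pμ sμ.continuous with hm
  set v := path ν pν sν.continuous with hv
  set h := path g pg sg.continuous with hh
  have cm : ContDiff ℝ ∞ m := contDiff_path μ pμ sμ
  have cv : ContDiff ℝ ∞ v := contDiff_path ν pν sν
  have ch : ContDiff ℝ ∞ h := contDiff_path g pg sg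
  set T : E4 → H →L[ℝ] H := fun τ => opA d (m τ) (v τ) (h τ) with hT
  have hTn : ∀ τ, ‖T τ‖ ≤ ρ := fun τ => ContinuousLinearMap.opNorm_le_bound _
    (by have := d.δ_pos; have := d.c₀_pos; positivity) fun u =>
      norm_opA_le d hθ hHs (fun z => hmv _) (fun z => hg _) u
  have hTlt : ∀ τ, ‖T τ‖ < 1 := fun τ => (hTn τ).trans_lt hlt
  set hL : E4 → H := fun τ => ContinuousMap.toLp (E := ℂ) 2 volume ℂ (h τ) with hhL
  set q : E4 → H := fun τ => Ring.inverse (1 - T τ) (hL τ) with hq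
  have cq : ContDiff ℝ ∞ q := by
    have cT : ContDiff ℝ ∞ T := by
      rw [hT]
      unfold opA
      exact ((((bil mulR).contDiff.comp cm).clm_comp contDiff_const).add
        (((bil mulC).contDiff.comp cv).clm_comp contDiff_const)).add
        (((bil mulR).contDiff.comp ch).clm_comp contDiff_const)
    have cinv : ContDiff ℝ ∞ fun τ => Ring.inverse (1 - T τ) :=
      contDiff_iff_contDiffAt.2 fun τ =>
        ((contDiffAt_ringInverse ℝ (Units.oneSub (T τ) (hTlt τ))).comp τ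
          (g := Ring.inverse) (f := fun τ => 1 - T τ)
          ((contDiff_const (c := (1 : H →L[ℝ] H))).sub cT).contDiffAt)
    exact cinv.clm_apply
      (((ContinuousMap.toLp (E := ℂ) 2 (volume : Measure T4) ℂ).restrictScalars ℝ).contDiff.comp ch)
  have fix_eq : ∀ τ, q τ = hL τ + T τ (q τ) := fun τ => by
    have h1 := Ring.mul_inverse_cancel (1 - T τ) (Units.oneSub (T τ) (hTlt τ)).isUnit
    have h2 := DFunLike.congr_fun h1 (hL τ)
    simp only [ContinuousLinearMap.mul_apply, ContinuousLinearMap.sub_apply,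
      ContinuousLinearMap.one_apply] at h2
    exact sub_eq_iff_eq_add.1 h2
  have m0 : ∀ (f : E4 → ℂ) (pf : Per f) (cf : Continuous f) τ z,
      path f pf cf τ z = path f pf cf 0 (z + proj τ) := fun f pf cf τ z => by
    rw [← proj_lift z, show proj (lift z) + proj τ = proj (lift z + τ) from rfl, path_proj,
      path_proj, add_zero]
  have shift : ∀ τ, Tr τ (q 0) = q τ := fun τ => by
    have e : Tr τ (q 0) = hL τ + T τ (Tr τ (q 0)) := by
      conv_lhs => rw [fix_eq 0]
      simp only [hT, opA, ContinuousLinearMap.add_apply, ContinuousLinearMap.comp_apply, Tr_add,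
        hhL, Tr_bil mulR (m 0) (m τ) τ (m0 μ pμ sμ.continuous τ),
        Tr_bil mulC (v 0) (v τ) τ (m0 ν pν sν.continuous τ),
        Tr_bil mulR (h 0) (h τ) τ (m0 g pg sg.continuous τ),
        Tr_toLp (h 0) (h τ) τ (m0 g pg sg.continuous τ), Tr_mop]
    have hd : Tr τ (q 0) - q τ = T τ (Tr τ (q 0) - q τ) := by
      rw [map_sub]
      conv_lhs => rw [e, fix_eq τ]
      abel
    have h5 : ‖Tr τ (q 0) - q τ‖ ≤ ρ * ‖Tr τ (q 0) - q τ‖ := by
      conv_lhs => rw [hd]
      exact (T τ).le_of_opNorm_le (hTn τ) _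
    exact sub_eq_zero.1 (norm_le_zero_iff.1 (by nlinarith [norm_nonneg (Tr τ (q 0) - q τ)]))
  set c : Z4 → ℂ := fun n => coef n (q 0) with hcdef
  have hc : Rap c := rap_of_smooth q cq c fun τ n => by rw [← shift τ, coef_Tr]
  refine ⟨c, hc, fun n => (norm_coef_le n _).trans ?_, ?_⟩
  · rw [le_div_iff₀ (by linarith)]
    have h1 : ‖q 0‖ ≤ ‖hL 0‖ + ρ * ‖q 0‖ := by
      conv_lhs => rw [fix_eq 0]
      exact (norm_add_le _ _).trans (add_le_add le_rfl ((T 0).le_of_opNorm_le (hTn 0) _))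
    have h2 : ‖hL 0‖ ≤ Hs := by
      refine (ContinuousLinearMap.le_of_opNorm_le _
        (ContinuousMap.toLp_norm_le (𝕜 := ℂ) (E := ℂ) (p := 2) (volume : Measure T4)) _).trans ?_
      simp [measureUnivNNReal]
      exact (ContinuousMap.norm_le _ hHs).2 fun z => hg _
    linarith
  have hP : Rap (act (aS A δ) (bS A δ) c) := hc.act (j := 0) fun n => by
    simpa using (mulS (A := A) (δ := δ)).le n
  have hTr : Rap (act (aT A δ) (bT A δ) c) := hc.act (j := 0) fun n => by
    simpa using d.mulT.le n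
  have ae : (cser c : T4 → ℂ) =ᵐ[volume] fun z => m 0 z * cser (act (aS A δ) (bS A δ) c) z
      + v 0 z * conj (cser (act (aS A δ) (bS A δ) c) z)
      + h 0 z * (1 + cser (act (aT A δ) (bT A δ) c) z) := by
    have e1 := coeFn_cser hc (u := q 0) fun n => rfl
    have e2 := coeFn_cser hP (u := mop (mulS (A := A) (δ := δ)) (q 0)) fun n => coef_mop _ _ n
    have e3 := coeFn_cser hTr (u := mop d.mulT (q 0)) fun n => coef_mop _ _ n
    have e0 : (q 0 : T4 → ℂ) =ᵐ[volume] (hL 0 + T 0 (q 0) : H) := by rw [← fix_eq 0]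
    simp only [hT, opA, ContinuousLinearMap.add_apply, ContinuousLinearMap.comp_apply] at e0
    filter_upwards [e0, e1, e2, e3, Lp.coeFn_add (hL 0) _, Lp.coeFn_add _ (bil mulR (h 0) _),
      Lp.coeFn_add (bil mulR (m 0) _) (bil mulC (v 0) _),
      ContinuousMap.coeFn_toLp (p := 2) (𝕜 := ℂ) (volume : Measure T4) (h 0),
      coeFn_bil mulR (m 0) (mop (mulS (A := A) (δ := δ)) (q 0)),
      coeFn_bil mulC (v 0) (mop (mulS (A := A) (δ := δ)) (q 0)),
      coeFn_bil mulR (h 0) (mop d.mulT (q 0))] with z a0 a1 a2 a3 a4 a5 a6 a7 a8 a9 a10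
    rw [← a1, a0, a4, Pi.add_apply, a5, Pi.add_apply, a6, Pi.add_apply, a8, a9, a10, a2, a3,
      show (hL 0 : T4 → ℂ) z = h 0 z from a7]
    simp only [mulR, mulC, ContinuousLinearMap.mul_apply', ContinuousLinearMap.bilinearComp_apply,
      ContinuousLinearMap.id_apply, ContinuousLinearEquiv.coe_coe, Complex.conjCLE_apply]
    ring
  intro x
  have := congrFun (eq_of_ae (map_continuous _) (by fun_prop) ae) (proj x)
  simpa only [cser_proj hc, cser_proj hP, cser_proj hTr, hm, hv, hh, path_proj, add_zero] using this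

end Vale.Agent.P204.Leaf
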