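import Vale.Agent.P204.Leaf.Ident
import Vale.Agent.P204.CxAlgebra

/-! Smooth solution of the twisted system along a linear foliation (P204). -/

namespace Vale.Agent.P204.Leaf

open scoped ContDiff ComplexConjugate
open Complex Finset
open Cx (M2 lof aof bof)

variable {A B : Matrix (Fin 4) (Fin 4) ℝ}

lemma Per.comp {α β : Type*} {f : E4 → α} (hf : Per f) (F : α → β) : Per fun x => F (f x) :=
  fun x k => congrArg F (hf x k)

lemma exists_sup {f : E4 → ℝ} (hf : Per f) (hc : Continuous f) : ∃ x₀, ∀ x, f x ≤ f x₀ := by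
  obtain ⟨z, -, hz⟩ := isCompact_univ.exists_isMaxOn Set.univ_nonempty
    (continuous_desc hf hc).continuousOn
  exact ⟨lift z, fun x => by
    have h : desc f (proj x) ≤ desc f z := hz (Set.mem_univ _)
    rw [desc_proj hf] at h
    exact h⟩

lemma low_bound (h : A * B = 1) :
    ∃ c₀ > 0, ∃ C₁, 0 ≤ C₁ ∧
      (∀ n : Z4, n ≠ 0 → c₀ ≤ |xi A n 0| + |xi A n 1| + leaf A n) ∧
      ∀ n : Z4, ∀ k, |xi A n k| ≤ C₁ * w n := by
  set Cb := ∑ i, ∑ k, |B k i| with hCb
  set Ca := ∑ i, ∑ k, |A i k| with hCa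
  have hCb0 : 0 ≤ Cb := sum_nonneg fun _ _ => sum_nonneg fun _ _ => abs_nonneg _
  refine ⟨1 / (Cb + 1), by positivity, Ca, sum_nonneg fun _ _ => sum_nonneg fun _ _ => abs_nonneg _,
    fun n hn => ?_, fun n k => ?_⟩
  · obtain ⟨i, hi⟩ : ∃ i, n i ≠ 0 := by
      by_contra hc; push_neg at hc; exact hn (funext hc)
    have e : (n i : ℝ) = ∑ k, xi A n k * B k i := by
      simp only [xi, sum_mul, mul_assoc]
      rw [sum_comm]
      simp only [← mul_sum, ← Matrix.mul_apply, h, Matrix.one_apply]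
      simp
    have h1 : (1 : ℝ) ≤ |(n i : ℝ)| := by exact_mod_cast Int.one_le_abs hi
    set S := |xi A n 0| + |xi A n 1| + leaf A n with hS
    have hS0 : 0 ≤ S := by simp only [hS, leaf]; positivity
    have hk : ∀ k, |xi A n k| ≤ S := fun k => by
      simp only [hS, leaf]
      fin_cases k <;> simp <;>
        linarith [abs_nonneg (xi A n 0), abs_nonneg (xi A n 1), abs_nonneg (xi A n 2), abs_nonneg (xi A n 3)]
    have h2 : |(n i : ℝ)| ≤ S * Cb := by
      rw [e]
      refine (abs_sum_le_sum_abs _ _).trans ((sum_le_sum fun k _ => ?_).trans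
        (le_of_eq (mul_sum _ _ _).symm) |>.trans (mul_le_mul_of_nonneg_left
          (single_le_sum (f := fun i => ∑ k, |B k i|)
            (fun _ _ => sum_nonneg fun _ _ => abs_nonneg _) (mem_univ i)) hS0))
      rw [abs_mul]
      exact mul_le_mul_of_nonneg_right (hk k) (abs_nonneg _)
    rw [div_le_iff₀ (by positivity)]
    nlinarith
  · refine (abs_sum_le_sum_abs _ _).trans ?_
    rw [hCa, sum_mul]
    refine sum_le_sum fun i _ => ?_
    rw [abs_mul, mul_comm]
    refine mul_le_mul (single_le_sum (f := fun k => |A i k|) (fun _ _ => abs_nonneg _) (mem_univ k))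
      ?_ (abs_nonneg _) (sum_nonneg fun _ _ => abs_nonneg _)
    linarith [abs_le_w n i]

/-- A smooth periodic solution of the twisted system, with the closedness identities. -/
structure Sol (A : Matrix (Fin 4) (Fin 4) ℝ) (μ ν g : E4 → ℂ) where
  P : E4 → ℂ
  Q : E4 → ℂ
  T : E4 → ℝ
  F : E4 → ℝ
  sP : ContDiff ℝ ∞ P
  sQ : ContDiff ℝ ∞ Q
  sT : ContDiff ℝ ∞ T
  sF : ContDiff ℝ ∞ F
  pP : Per P
  pQ : Per Q
  pT : Per T
  pF : Per F
  T_gt : ∀ x, -1 < T x
  eq : ∀ x, Q x = μ x * P x + ν x * conj (P x) + g x * (1 + (T x : ℂ))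
  closed_a : ∀ x, I * (fderiv ℝ P x (frame A 0) - fderiv ℝ Q x (frame A 0))
    - (fderiv ℝ P x (frame A 1) + fderiv ℝ Q x (frame A 1))
    + (fderiv ℝ F x (frame A 3) : ℂ) - I * (fderiv ℝ F x (frame A 2) : ℂ) = 0
  closed_b : ∀ x, (fderiv ℝ Q x (frame A 2) + conj (fderiv ℝ P x (frame A 2)))
    - I * (fderiv ℝ Q x (frame A 3) - conj (fderiv ℝ P x (frame A 3)))
    = (fderiv ℝ T x (frame A 0) : ℂ) + I * (fderiv ℝ T x (frame A 1) : ℂ)

/-- The derivative family along a frame vector. -/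
noncomputable def dc (A : Matrix (Fin 4) (Fin 4) ℝ) (k : Fin 4) (c : Z4 → ℂ) : Z4 → ℂ :=
  fun n => L n (frame A k) * c n

lemma rap_dc (k : Fin 4) {c : Z4 → ℂ} (hc : Rap c) : Rap (dc A k c) := by
  refine hc.smul (C := 2 * Real.pi * ‖frame A k‖) (j := 1) (m := fun n => L n (frame A k)) fun n => ?_
  refine ((L n).le_opNorm _).trans ?_
  rw [pow_one, mul_right_comm]
  exact mul_le_mul_of_nonneg_right (norm_L n) (norm_nonneg _)

lemma fderiv_frame (k : Fin 4) {c : Z4 → ℂ} (hc : Rap c) (x : E4) :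
    fderiv ℝ (Ser c) x (frame A k) = Ser (dc A k c) x := fderiv_Ser hc x _

lemma Ser_lin {m : ℕ} (α : Fin m → ℂ) (cs : Fin m → Z4 → ℂ) (h : ∀ j, Rap (cs j)) (x : E4) :
    Ser (fun n => ∑ j, α j * cs j n) x = ∑ j, α j * Ser (cs j) x := by
  simp only [Ser, smul_eq_mul, mul_sum]
  rw [Summable.tsum_finsetSum fun j _ => ?_]
  · refine sum_congr rfl fun j _ => ?_
    rw [← tsum_mul_left]
    exact tsum_congr fun n => by ring
  · exact ((summable_ser (h j) x).mul_left (α j)).congr fun n => by simp; ring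

/-- The system is solvable. -/
theorem exists_sol (hAB : A * B = 1) {μ ν g : E4 → ℂ} (sμ : ContDiff ℝ ∞ μ)
    (sν : ContDiff ℝ ∞ ν) (sg : ContDiff ℝ ∞ g) (pμ : Per μ) (pν : Per ν) (pg : Per g)
    (hlt : ∀ x, ‖μ x‖ + ‖ν x‖ < 1) : Nonempty (Sol A μ ν g) := by
  obtain ⟨c₀, hc₀, C₁, hC₁, hlow, hhigh⟩ := low_bound hAB
  obtain ⟨xm, hxm⟩ := exists_sup (f := fun x => ‖μ x‖ + ‖ν x‖)
    (fun x k => by simp only [pμ x k, pν x k]) (sμ.continuous.norm.add sν.continuous.norm)
  obtain ⟨xg, hxg⟩ := exists_sup (pg.comp fun z => ‖z‖) sg.continuous.norm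
  set θ := ‖μ xm‖ + ‖ν xm‖ with hθ
  set Hs := ‖g xg‖ with hHs
  have hθ0 : 0 ≤ θ := by positivity
  have hHs0 : 0 ≤ Hs := norm_nonneg _
  have hθ1 : θ < 1 := hlt xm
  set R := 2 * Hs / (1 - θ) with hR
  have hR0 : 0 ≤ R := div_nonneg (by positivity) (by linarith)
  set Kw := ∑' n : Z4, (1 : ℝ) / w n ^ 8 with hKw
  have hKw0 : 0 ≤ Kw := tsum_nonneg fun n => by have := w_pos n; positivity
  set ε := min ((1 - θ) / (2 * (Hs + 1))) (min (1 / (2 * (R * Kw + 1))) 4) with hε
  have hε0 : 0 < ε := lt_min (div_pos (by linarith) (by positivity)) (lt_min (by positivity) (by norm_num))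
  set δ := c₀ * ε / 8 with hδ
  have d : Data A δ c₀ C₁ := ⟨hc₀, hC₁, hlow, hhigh, by positivity, by
    have : ε ≤ 4 := (min_le_right _ _).trans (min_le_right _ _)
    rw [hδ]; nlinarith⟩
  have hεδ : 8 * δ / c₀ = ε := by rw [hδ]; field_simp
  have hsm : Hs * (8 * δ / c₀) ≤ (1 - θ) / 2 := by
    rw [hεδ]
    have h1 := (le_div_iff₀ (by positivity : (0 : ℝ) < 2 * (Hs + 1))).1 (min_le_left _ _ : ε ≤ _)
    nlinarith
  obtain ⟨c, hc, hcb, heq⟩ := exists_coeff d sμ sν sg pμ pν pg hθ0 hHs0 hxm hxg (by linarith)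
  set cP := act (aS A δ) (bS A δ) c with hcP
  set cT := act (aT A δ) (bT A δ) c with hcT
  set cF := act (aF A δ) (bF A δ) c with hcF
  have hP : Rap cP := hc.act (j := 0) fun n => by simpa using (mulS (A := A) (δ := δ)).le n
  have hT : Rap cT := hc.act (j := 0) fun n => by simpa using d.mulT.le n
  have hF : Rap cF := hc.act fun n => d.F_le n
  have rT : ∀ x, ((Ser cT x).re : ℂ) = Ser cT x := fun x =>
    Ser_real (fun n => act_real real_T c n) x
  have rF : ∀ x, ((Ser cF x).re : ℂ) = Ser cF x := fun x =>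
    Ser_real (fun n => act_real real_F c n) x
  have dre : ∀ {e : Z4 → ℂ}, Rap e → (∀ x, ((Ser e x).re : ℂ) = Ser e x) → ∀ x v,
      (fderiv ℝ (fun y => (Ser e y).re) x v : ℂ) = fderiv ℝ (Ser e) x v := fun {e} he hre x v => by
    have h1 := reCLM.hasFDerivAt.comp x (hasFDerivAt_Ser he x)
    have h2 := (Complex.ofRealCLM.hasFDerivAt.comp x h1)
    have h3 : ((Complex.ofRealCLM : ℝ → ℂ) ∘ (reCLM : ℂ → ℝ) ∘ Ser e) = Ser e := funext fun y => hre y
    rw [h3] at h2
    rw [h2.fderiv, show (fun y => (Ser e y).re) = (reCLM : ℂ → ℝ) ∘ Ser e from rfl, h1.fderiv]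
    rfl
  have hsum : ∀ x, ‖Ser cT x‖ < 1 := fun x => by
    refine (norm_Ser_le hT x).trans_lt ?_
    have hb : ∀ n, ‖cT n‖ ≤ ε * R * (1 / w n ^ 8) := fun n => by
      have hR' : Hs / (1 - (θ + Hs * (8 * δ / c₀))) ≤ R :=
        le_of_le_of_eq (div_le_div_of_nonneg_left hHs0 (by linarith)
          (show (1 - θ) / 2 ≤ 1 - (θ + Hs * (8 * δ / c₀)) by linarith)) (by rw [hR]; field_simp)
      have hTn := d.T_le n
      rw [hεδ] at hTn
      have := w_pos n
      have h9 : ε / w n ^ 9 ≤ ε * (1 / w n ^ 8) := by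
        rw [mul_one_div]
        exact div_le_div_of_nonneg_left hε0.le (by positivity)
          (pow_le_pow_right₀ (one_le_w n) (by norm_num))
      calc ‖cT n‖ ≤ ‖aT A δ n‖ * R + ‖bT A δ n‖ * R := by
            refine (norm_add_le _ _).trans (add_le_add ?_ ?_)
            · rw [norm_mul]; exact mul_le_mul_of_nonneg_left ((hcb n).trans hR') (norm_nonneg _)
            · rw [norm_mul, RCLike.norm_conj]
              exact mul_le_mul_of_nonneg_left ((hcb _).trans hR') (norm_nonneg _)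
        _ = (‖aT A δ n‖ + ‖bT A δ n‖) * R := by ring
        _ ≤ ε * (1 / w n ^ 8) * R := mul_le_mul_of_nonneg_right (hTn.trans h9) hR0
        _ = _ := by ring
    refine (hT.norm.tsum_le_tsum hb (summable_w.mul_left _)).trans_lt ?_
    rw [tsum_mul_left, ← hKw]
    have h1 : ε ≤ 1 / (2 * (R * Kw + 1)) := (min_le_right _ _).trans (min_le_left _ _)
    rw [le_div_iff₀ (by positivity)] at h1
    nlinarith [mul_nonneg hR0 hKw0]
  have sre : ∀ {e : Z4 → ℂ}, Rap e → ContDiff ℝ ∞ fun y => (Ser e y).re := fun he =>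
    reCLM.contDiff.comp (contDiff_Ser he)
  refine ⟨⟨Ser cP, Ser c, fun x => (Ser cT x).re, fun x => (Ser cF x).re, contDiff_Ser hP,
    contDiff_Ser hc, sre hT, sre hF, per_Ser _, per_Ser _, (per_Ser cT).comp _, (per_Ser cF).comp _,
    fun x => ?_, fun x => ?_, fun x => ?_, fun x => ?_⟩⟩
  · linarith [neg_abs_le (Ser cT x).re, abs_re_le_norm (Ser cT x), hsum x]
  · rw [rT]; exact heq x
  · rw [dre hF rF, dre hF rF]
    simp only [fderiv_frame, hP, hc, hF]
    have h := Ser_lin (x := x) ![I, -I, -1, -1, 1, -I]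
      ![dc A 0 cP, dc A 0 c, dc A 1 cP, dc A 1 c, dc A 3 cF, dc A 2 cF]
      (fun j => by fin_cases j <;> simp <;> first | exact rap_dc _ hP | exact rap_dc _ hc | exact rap_dc _ hF)
    have e : (fun n => ∑ j, ![I, -I, -1, -1, 1, -I] j
        * ![dc A 0 cP, dc A 0 c, dc A 1 cP, dc A 1 c, dc A 3 cF, dc A 2 cF] j n) = fun _ => 0 := by
      funext n
      simp [Fin.sum_univ_succ, dc, L_frame]
      linear_combination (2 * (Real.pi : ℂ) * I) * ident_a d c n
    rw [e] at h
    simp [Ser, Fin.sum_univ_succ] at h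
    simp only [Ser, smul_eq_mul]
    linear_combination -h
  · rw [dre hT rT, dre hT rT]
    simp only [fderiv_frame, hP, hc, hT]
    have hcc : ∀ k, conj (Ser (dc A k cP) x) = Ser (dc A k fun n => conj (cP (-n))) x := fun k => by
      rw [← Ser_cc]
      congr 1
      funext n
      simp [dc, L_frame, xi_neg, map_ofNat]
    rw [hcc, hcc]
    have hPc : Rap fun n => conj (cP (-n)) := fun k => (hP.comp_neg k).congr fun n => by simp
    have h := Ser_lin (x := x) ![1, 1, -I, I, -1, -I]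
      ![dc A 2 c, dc A 2 fun n => conj (cP (-n)), dc A 3 c, dc A 3 fun n => conj (cP (-n)),
        dc A 0 cT, dc A 1 cT]
      (fun j => by fin_cases j <;> simp <;> first | exact rap_dc _ hPc | exact rap_dc _ hc | exact rap_dc _ hT)
    have e : (fun n => ∑ j, ![1, 1, -I, I, -1, -I] j
        * ![dc A 2 c, dc A 2 fun n => conj (cP (-n)), dc A 3 c, dc A 3 fun n => conj (cP (-n)),
        dc A 0 cT, dc A 1 cT] j n) = fun _ => 0 := by
      funext n
      simp [Fin.sum_univ_succ, dc, L_frame]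
      linear_combination (2 * (Real.pi : ℂ) * I) * ident_b d c n
    rw [e] at h
    simp [Ser, Fin.sum_univ_succ] at h
    simp only [Ser, smul_eq_mul]
    linear_combination -h

end Vale.Agent.P204.Leaf
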